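import Crest.Agent.R174.Defs

/-! Row 174: group-theoretic reduction. -/

set_option autoImplicit false

open MeasureTheory Monoid
open scoped InnerProductSpace

universe u

namespace Crest.Agent.R174

namespace Alg

lemma exists_int_inv {m n : ℕ} (M : Fin m → Fin n → ℤ)
    (h : (Matrix.of fun i j => (M i j : ℚ)).rank = m) :
    ∃ (d : ℕ) (P : Fin n → Fin m → ℤ), 0 < d ∧
      ∀ i j, ∑ k, M i k * P k j = if i = j then (d : ℤ) else 0 := by
  have hs : LinearMap.range (Matrix.of fun i j => (M i j : ℚ)).mulVecLin = ⊤ :=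
    Submodule.eq_top_of_finrank_eq (by rw [← Matrix.rank, h]; simp)
  have h1 : ∀ j : Fin m, ∃ x : Fin n → ℚ,
      (Matrix.of fun i j => (M i j : ℚ)).mulVecLin x = Pi.single j 1 := fun j =>
    LinearMap.range_eq_top.1 hs _
  choose x hx using h1
  set d : ℕ := ∏ p : Fin m × Fin n, (x p.1 p.2).den
  have h2 : ∀ j k, ∃ z : ℤ, (z : ℚ) = d * x j k := fun j k => by
    obtain ⟨c, hc⟩ : (x j k).den ∣ d :=
      Finset.dvd_prod_of_mem (fun p : Fin m × Fin n => (x p.1 p.2).den) (Finset.mem_univ (j, k))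
    refine ⟨c * (x j k).num, ?_⟩
    rw [hc]; push_cast
    rw [← Rat.den_mul_eq_num]; ring
  choose P hP using h2
  refine ⟨d, fun k j => P j k, Finset.prod_pos fun p _ => (x p.1 p.2).den_pos, fun i j => ?_⟩
  have h3 := congrFun (hx j) i
  simp only [Matrix.mulVecLin_apply, Matrix.mulVec, dotProduct, Matrix.of_apply,
    Pi.single_apply] at h3
  have : ((∑ k, M i k * P j k : ℤ) : ℚ) = ((if i = j then (d : ℤ) else 0 : ℤ) : ℚ) := by
    push_cast
    simp only [hP, mul_left_comm _ (d : ℚ), ← Finset.mul_sum, h3]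
    split_ifs <;> simp
  exact_mod_cast this

/-- every permutation is a product of two involutions -/
lemma two_invol {X : Type*} (s : Equiv.Perm X) :
    ∃ a b : Equiv.Perm X, a * a = 1 ∧ b * b = 1 ∧ s = a * b := by
  let r : X → X := fun y => (Quotient.mk (Equiv.Perm.SameCycle.setoid s) y).out
  have hr : ∀ y, s.SameCycle (r y) y := fun y => Quotient.mk_out (s := Equiv.Perm.SameCycle.setoid s) y
  have hrr : ∀ y (c : ℤ), r ((s ^ c) (r y)) = r y := fun y c => by
    simp only [r]
    congr 1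
    refine (Quotient.sound (s := Equiv.Perm.SameCycle.setoid s) ?_).trans (Quotient.out_eq _)
    exact Equiv.Perm.SameCycle.symm ⟨c, rfl⟩
  choose k hk using hr
  let ρ : X → X := fun y => (s ^ (-k y)) (r y)
  have hρ : ∀ y (c : ℤ), ρ ((s ^ c) (r y)) = (s ^ (-c)) (r y) := fun y c => by
    have h1 := hk ((s ^ c) (r y))
    simp only [ρ, hrr] at h1 ⊢
    set k' := k ((s ^ c) (r y))
    have h2 := congrArg (s ^ (-c - k')) h1
    rw [← Equiv.Perm.mul_apply, ← Equiv.Perm.mul_apply, ← zpow_add, ← zpow_add] at h2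
    rw [show -k' = -c - k' + c by ring, ← h2]
    congr 2; ring
  have hρρ : Function.Involutive ρ := fun y => by
    change ρ ((s ^ (-k y)) (r y)) = y
    rw [hρ, neg_neg, hk]
  refine ⟨s * hρρ.toPerm, hρρ.toPerm, ?_, ?_, ?_⟩
  · ext y
    change s (ρ (s ((s ^ (-k y)) (r y)))) = y
    rw [← Equiv.Perm.mul_apply s (s ^ (-k y)), ← zpow_one_add, hρ, ← Equiv.Perm.mul_apply s,
      ← zpow_one_add, show 1 + -(1 + -k y) = k y by ring, hk]
  · ext y; exact hρρ y
  · ext y
    change s y = s (ρ (ρ y))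
    rw [hρρ]

lemma lift_surj (X : Type*) : Function.Surjective
    (FreeGroup.lift (Subtype.val : Invol (Equiv.Perm X) → Equiv.Perm X)) := fun s => by
  obtain ⟨a, b, ha, hb, h⟩ := two_invol s
  exact ⟨FreeGroup.of ⟨a, ha⟩ * FreeGroup.of ⟨b, hb⟩, by simp [h]⟩

lemma exists_list {A B : Type*} [Group A] [Group B] (f : A →* B) (H : Subgroup A) {k : B}
    (hk : k ∈ Subgroup.normalClosure (f '' H)) :
    ∃ L : List (B × A), (∀ p ∈ L, p.2 ∈ H) ∧ k = (L.map fun p => p.1⁻¹ * f p.2 * p.1).prod := by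
  induction hk using Subgroup.closure_induction'' with
  | one => exact ⟨[], by simp, rfl⟩
  | mem x hx =>
    obtain ⟨_, ⟨a, ha, rfl⟩, hc⟩ := Group.mem_conjugatesOfSet_iff.1 hx
    obtain ⟨c, rfl⟩ := isConj_iff.1 hc
    exact ⟨[(c⁻¹, a)], by simpa using ha, by simp⟩
  | inv_mem x hx =>
    obtain ⟨_, ⟨a, ha, rfl⟩, hc⟩ := Group.mem_conjugatesOfSet_iff.1 hx
    obtain ⟨c, rfl⟩ := isConj_iff.1 hc
    exact ⟨[(c⁻¹, a⁻¹)], by simpa using ha, by simp [mul_assoc]⟩
  | mul x y _ _ hx hy =>
    obtain ⟨L, hL, rfl⟩ := hx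
    obtain ⟨L', hL', rfl⟩ := hy
    refine ⟨L ++ L', fun p hp => ?_, by simp⟩
    rcases List.mem_append.1 hp with h | h
    exacts [hL p h, hL' p h]

lemma expS_inl {S ι : Type*} (j : ι) (r : FreeGroup S) :
    expS (Sum.inr j : S ⊕ ι) (FreeGroup.map Sum.inl r) = 1 := by
  have : (expS (Sum.inr j : S ⊕ ι)).comp (FreeGroup.map Sum.inl) = 1 := by
    ext x; simp [expS]
  exact DFunLike.congr_fun this r

/-- left multiplication on the first coordinate -/
def phi (G : Type u) [Group G] : G →* Equiv.Perm (G × Bool) where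
  toFun a := Equiv.prodCongr (Equiv.mulLeft a) (Equiv.refl _)
  map_one' := by ext <;> simp
  map_mul' a b := by ext <;> simp [mul_assoc]

end Alg

open Alg in
theorem alg_reduction (G : Type u) [Group G] (n m : ℕ)
    (w : Fin m → Coprod G (FreeGroup (Fin n)))
    (hrank : (Matrix.of fun (i : Fin m) (j : Fin n) =>
      ((Multiplicative.toAdd
          (Coprod.lift (1 : G →* Multiplicative (Fin n → ℤ))
            (FreeGroup.lift fun k => Multiplicative.ofAdd (Pi.single k 1)) (w i)) j : ℤ) : ℚ)).rank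
        = m)
    (hn : ¬ Function.Injective ((QuotientGroup.mk' (Subgroup.normalClosure (Set.range w))).comp
      (Coprod.inl : G →* Coprod G (FreeGroup (Fin n))))) :
    ∃ (g : Invol (Equiv.Perm (G × Bool))) (d : ℕ)
      (v : Fin m → FreeGroup (Invol (Equiv.Perm (G × Bool)) ⊕ Fin m))
      (L : List (FreeGroup (Invol (Equiv.Perm (G × Bool)) ⊕ Fin m) ×
        FreeGroup (Invol (Equiv.Perm (G × Bool))))),
      g.1 ≠ 1 ∧ 0 < d ∧
      (∀ i j, Multiplicative.toAdd (expS (Sum.inr j) (v i)) = if i = j then (d : ℤ) else 0) ∧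
      (∀ p ∈ L, FreeGroup.lift Subtype.val p.2 = 1) ∧
      FreeGroup.of (Sum.inl g) * ((L.map fun p => p.1⁻¹ * FreeGroup.map Sum.inl p.2 * p.1).prod)⁻¹ ∈
        Subgroup.normalClosure (Set.range v) := by
  classical
  obtain ⟨d, P, hd, hP⟩ := exists_int_inv _ hrank
  rw [injective_iff_map_eq_one] at hn
  push Not at hn
  obtain ⟨a, ha, ha1⟩ := hn
  rw [MonoidHom.comp_apply, QuotientGroup.mk'_apply, QuotientGroup.eq_one_iff] at ha
  let π := FreeGroup.lift (Subtype.val : Invol (Equiv.Perm (G × Bool)) → Equiv.Perm (G × Bool))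
  let f : FreeGroup (Invol (Equiv.Perm (G × Bool))) →*
      FreeGroup (Invol (Equiv.Perm (G × Bool)) ⊕ Fin m) := FreeGroup.map Sum.inl
  let K := Subgroup.normalClosure (f '' π.ker)
  let mk := QuotientGroup.mk' K
  let θ := π.liftOfSurjective (lift_surj _) ⟨mk.comp f, fun r hr =>
    (QuotientGroup.eq_one_iff _).2 (Subgroup.subset_normalClosure ⟨r, hr, rfl⟩)⟩
  have hθ : ∀ r, θ (π r) = mk (f r) := fun r => MonoidHom.liftOfRightInverse_comp_apply _ _ _ _ r
  let σ : FreeGroup (Fin n) →* FreeGroup (Invol (Equiv.Perm (G × Bool)) ⊕ Fin m) :=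
    FreeGroup.lift fun k => (List.ofFn fun l => FreeGroup.of (Sum.inr l) ^ P k l).prod
  let Ψ := Coprod.lift (θ.comp (phi G)) (mk.comp σ)
  choose v hv using fun i => QuotientGroup.mk'_surjective K (Ψ (w i))
  -- the involution
  set τ : Equiv.Perm (G × Bool) := Equiv.swap (1, false) (1, true) with hτ
  have hconj : phi G a * τ * (phi G a)⁻¹ = Equiv.swap (a, false) (a, true) := by
    rw [hτ, ← Equiv.swap_apply_apply]; simp [phi]
  have hcomm : Commute (Equiv.swap (a, false) (a, true)) τ :=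
    (Equiv.Perm.disjoint_swap_swap (by simp [ha1, ha1.symm])).commute
  let g : Invol (Equiv.Perm (G × Bool)) := ⟨Equiv.swap (a, false) (a, true) * τ, by
    rw [hcomm.symm.mul_mul_mul_comm, hτ]; simp⟩
  have hN : θ g.1 ∈ (Subgroup.normalClosure (Set.range v)).map mk := by
    haveI : ((Subgroup.normalClosure (Set.range v)).map mk).Normal :=
      Subgroup.Normal.map inferInstance _ (QuotientGroup.mk'_surjective K)
    have h1 : θ (phi G a) ∈ (Subgroup.normalClosure (Set.range v)).map mk := by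
      have : Subgroup.normalClosure (Set.range w) ≤
          ((Subgroup.normalClosure (Set.range v)).map mk).comap Ψ :=
        Subgroup.normalClosure_le_normal (by
          rintro _ ⟨i, rfl⟩
          exact ⟨v i, Subgroup.subset_normalClosure ⟨i, rfl⟩, hv i⟩)
      exact this ha
    have h2 : g.1 = phi G a * (τ * (phi G a)⁻¹ * τ⁻¹) := by
      change _ * τ = _
      rw [← hconj, hτ, Equiv.swap_inv]; simp only [mul_assoc]
    rw [h2, map_mul, map_mul, map_mul, map_inv, map_inv]
    exact mul_mem h1 (Subgroup.Normal.conj_mem inferInstance _ (inv_mem h1) _)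
  obtain ⟨x, hx, hx'⟩ := hN
  have h3 : θ g.1 = mk (FreeGroup.of (Sum.inl g)) := by
    have := hθ (FreeGroup.of g)
    simpa [π, f] using this
  have h4 : FreeGroup.of (Sum.inl g) * x⁻¹ ∈ K := by
    rw [← QuotientGroup.eq_one_iff]
    change mk _ = 1
    rw [map_mul, map_inv, ← h3, hx', mul_inv_cancel]
  obtain ⟨L, hL, hL'⟩ := exists_list f π.ker h4
  refine ⟨g, d, v, L, fun h => ?_, hd, fun i j => ?_, hL, ?_⟩
  · have := congrArg (fun s : Equiv.Perm (G × Bool) => s (1, false)) h
    simp only [g, hτ, Equiv.Perm.mul_apply, Equiv.swap_apply_left, Equiv.Perm.one_apply] at this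
    rw [Equiv.swap_apply_of_ne_of_ne (by simp) (by simp [ha1.symm])] at this
    simp at this
  · let ε := QuotientGroup.lift K (expS (Sum.inr j)) (fun x hx =>
      Subgroup.normalClosure_le_normal (N := (expS (Sum.inr j)).ker)
        (by rintro _ ⟨r, _, rfl⟩; exact expS_inl j r) hx)
    have hε : ∀ x, ε (mk x) = expS (Sum.inr j) x := fun x => rfl
    let lam : Multiplicative (Fin n → ℤ) →* Multiplicative ℤ :=
      { toFun := fun x => Multiplicative.ofAdd (∑ k, Multiplicative.toAdd x k * P k j)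
        map_one' := by simp
        map_mul' := fun x y => by simp [add_mul, Finset.sum_add_distrib] }
    have key : ε.comp Ψ = lam.comp (Coprod.lift (1 : G →* Multiplicative (Fin n → ℤ))
        (FreeGroup.lift fun k => Multiplicative.ofAdd (Pi.single k 1))) := by
      refine Coprod.hom_ext (MonoidHom.ext fun b => ?_) (FreeGroup.ext_hom _ _ fun k => ?_)
      · obtain ⟨r, hr⟩ := lift_surj _ (phi G b)
        change ε (θ (phi G b)) = lam 1
        rw [← hr, map_one]
        exact (congrArg ε (hθ r)).trans (expS_inl j r)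
      · simp only [MonoidHom.comp_apply, Ψ, Coprod.lift_apply_inr]
        rw [hε, FreeGroup.lift_apply_of, FreeGroup.lift_apply_of, map_list_prod, List.map_ofFn,
          List.prod_ofFn]
        apply Multiplicative.toAdd.injective
        simp [lam, expS, toAdd_prod, Pi.single_apply]
    rw [← hε, hv, ← hP]
    exact congrArg Multiplicative.toAdd (DFunLike.congr_fun key (w i))
  · rw [← hL', mul_inv_rev, inv_inv, ← mul_assoc]
    exact Subgroup.Normal.conj_mem inferInstance _ hx _

end Crest.Agent.R174
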