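import Mathlib

/-! Definitions for row 174 (Kervaire–Laudenbach–Howie for all groups). -/

set_option autoImplicit false

open MeasureTheory
open scoped InnerProductSpace

noncomputable section

namespace Crest.Agent.R174

/-! ### Degree theory on the unitary group of a finite-dimensional C⋆-algebra -/

section deg

variable (A : Type*) [CStarAlgebra A]

/-- a faithful real trace -/
structure IsFTrace (τ : A →ₗ[ℝ] ℝ) : Prop where
  comm : ∀ a b, τ (a * b) = τ (b * a)
  pos : ∀ a, a ≠ 0 → 0 < τ (star a * a)

/-- the Lie algebra of the unitary group: skew-adjoint elements -/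
def sk : Submodule ℝ A where
  carrier := {x | star x = -x}
  add_mem' := by
    intro a b ha hb
    simp only [Set.mem_ofPred_eq] at *
    rw [star_add, ha, hb, neg_add]
  zero_mem' := by simp
  smul_mem' := by
    intro c a ha
    simp only [Set.mem_ofPred_eq] at *
    rw [star_smul, ha, star_trivial, smul_neg]

variable {A}

theorem mem_sk {x : A} : x ∈ sk A ↔ star x = -x := Iff.rfl

variable (A)

/-- the projection `x ↦ (x - x⋆)/2` onto `sk A` -/
def pr : A →ₗ[ℝ] sk A where
  toFun x := ⟨(1 / 2 : ℝ) • (x - star x), by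
    rw [mem_sk, star_smul, star_trivial, star_sub, star_star, ← smul_neg, neg_sub]⟩
  map_add' x y := by
    apply Subtype.ext
    simp only [star_add, Submodule.coe_add, ← smul_add]
    congr 1; abel
  map_smul' c x := by
    apply Subtype.ext
    simp only [star_smul, star_trivial, RingHom.id_apply, Submodule.coe_smul, ← smul_sub]
    rw [smul_comm]

variable {A}

theorem pr_coe (x : A) : ((pr A x : sk A) : A) = (1 / 2 : ℝ) • (x - star x) := rfl

theorem pr_of_mem {x : A} (hx : x ∈ sk A) : pr A x = ⟨x, hx⟩ := by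
  apply Subtype.ext
  rw [pr_coe, mem_sk.1 hx, sub_neg_eq_add, ← two_smul ℝ x, smul_smul]
  norm_num

/-- the right-trivialised Jacobian `ξ ↦ DF(t)[ξ t] · F(t)⋆` -/
def jac (F : A → A) (t : A) : sk A →ₗ[ℝ] sk A :=
  pr A ∘ₗ LinearMap.mulRight ℝ (star (F t)) ∘ₗ (fderiv ℝ F t : A →ₗ[ℝ] A) ∘ₗ
    LinearMap.mulRight ℝ t ∘ₗ (sk A).subtype

theorem jac_apply (F : A → A) (t : A) (ξ : sk A) :
    jac F t ξ = pr A (fderiv ℝ F t ((ξ : A) * t) * star (F t)) := rfl

instance instMeasU : MeasurableSpace (unitary A) := borel _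
instance instBorelU : BorelSpace (unitary A) := ⟨rfl⟩

variable [FiniteDimensional ℂ A]

instance instCompactU : CompactSpace (unitary A) := by
  haveI : ProperSpace A := FiniteDimensional.proper ℂ A
  refine isCompact_iff_compactSpace.1 (Metric.isCompact_of_isClosed_isBounded isClosed_unitary ?_)
  refine (Metric.isBounded_closedBall (x := (0 : A)) (r := 1)).subset fun u hu => ?_
  rw [mem_closedBall_zero_iff]
  rcases subsingleton_or_nontrivial A with h | h
  · rw [Subsingleton.elim u 0]; simp
  · exact (CStarRing.norm_of_mem_unitary hu).le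

variable (A) in
/-- the Haar probability measure of the unitary group -/
def haarU : Measure (unitary A) := Measure.haarMeasure ⊤

instance : (haarU A).IsHaarMeasure := by unfold haarU; infer_instance

instance : IsProbabilityMeasure (haarU A) :=
  ⟨by have := Measure.haarMeasure_self (G := unitary A) (K₀ := ⊤); simpa [haarU] using this⟩

instance : (haarU A).IsMulRightInvariant := by
  refine ⟨fun g => ?_⟩
  haveI : IsProbabilityMeasure ((haarU A).map (· * g)) :=
    Measure.isProbabilityMeasure_map (measurable_mul_const g).aemeasurable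
  haveI : ((haarU A).map (· * g)).IsHaarMeasure := Measure.isHaarMeasure_map_mul_right _ g
  exact Measure.isHaarMeasure_eq_of_isProbabilityMeasure _ _

/-- the degree integral with weight `ψ` -/
def deg (ψ : A → ℝ) (F : A → A) : ℝ :=
  ∫ t : unitary A, ψ (F t) * LinearMap.det (jac F t) ∂(haarU A)

variable (A) in
/-- statement of homotopy invariance of the degree (proved in `Deg.lean`) -/
def DegHomotopy : Prop :=
  ∀ (H : ℝ × A → A) (ψ : A → ℝ), (∀ (s : ℝ) (t : unitary A), ContDiffAt ℝ 2 H (s, (t : A))) →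
    (∀ (s : ℝ) (t : unitary A), H (s, (t : A)) ∈ unitary A) → ContDiff ℝ 1 ψ →
    deg ψ (fun x => H (0, x)) = deg ψ (fun x => H (1, x))

end deg

/-! ### Word maps -/

/-- value of a signed letter (`false` = inverse, written as the adjoint) -/
def ltr {B α : Type*} [Star B] (t : α → B) (p : α × Bool) : B := if p.2 then t p.1 else star (t p.1)

/-- the word map `t ↦ (L i (t))_i` -/
def wordMap {B ι : Type*} [Monoid B] [Star B] (L : ι → List (ι × Bool)) (t : ι → B) : ι → B :=
  fun i => ((L i).map (ltr t)).prod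

open Classical in
/-- exponent sum of the letter `a` -/
def expS {α : Type*} (a : α) : FreeGroup α →* Multiplicative ℤ :=
  FreeGroup.lift fun x => Multiplicative.ofAdd (if x = a then 1 else 0)

/-! ### Cayley transform -/

section cay

variable {B : Type*} [CStarAlgebra B]

theorem isUnit_cay {b : B} (hb : IsSelfAdjoint b) : IsUnit (1 + Complex.I • b) := by
  have h : Complex.I ∉ spectrum ℂ b := fun h => by
    have := hb.mem_spectrum_eq_re h
    simp at this
  have h2 := (spectrum.notMem_iff.1 h).smul (Units.mk0 (-Complex.I) (by simp))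
  convert h2 using 1
  rw [Units.smul_def, Units.val_mk0, smul_sub, Algebra.algebraMap_eq_smul_one, smul_smul]
  simp

/-- the Cayley transform `2 (1 + i b)⁻¹ - 1` -/
def cay0 (b : B) : B := 2 * Ring.inverse (1 + Complex.I • b) - 1

theorem cay0_mem {b : B} (hb : IsSelfAdjoint b) : cay0 b ∈ unitary B := by
  set p : B := 1 + Complex.I • b with hp
  set r := Ring.inverse p with hr
  have h1 : r * p = 1 := Ring.inverse_mul_cancel _ (isUnit_cay hb)
  have h2 : p * r = 1 := Ring.mul_inverse_cancel _ (isUnit_cay hb)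
  have h3 : star p * star r = 1 := by rw [← star_mul, h1, star_one]
  have h4 : star r * star p = 1 := by rw [← star_mul, h2, star_one]
  have h5 : p + star p = 2 := by
    rw [hp, star_add, star_one, star_smul, hb.star_eq, Complex.star_def, Complex.conj_I, neg_smul]
    rw [← one_add_one_eq_two]; abel
  have h6 : star r * r * 2 = r + star r := by
    have : star r * (p + star p) * r = r + star r := by
      rw [mul_add, add_mul, mul_assoc, h2, h4, mul_one, one_mul, add_comm]
    rw [← this, h5, mul_assoc, mul_assoc, mul_two, two_mul]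
  have h7 : r * star r * 2 = r + star r := by
    have : r * (p + star p) * star r = r + star r := by
      rw [mul_add, add_mul, h1, one_mul, mul_assoc, h3, mul_one, add_comm]
    rw [← this, h5, mul_assoc, mul_assoc, mul_two, two_mul]
  have hs : star (cay0 b) = 2 * star r - 1 := by
    rw [cay0, star_sub, star_one, star_mul, star_ofNat, mul_two, two_mul]
  have hc : cay0 b = 2 * r - 1 := rfl
  rw [Unitary.mem_iff, hs, hc]
  constructor
  · have : (2 * star r - 1) * (2 * r - 1) = 2 * (star r * r * 2) - 2 * (r + star r) + 1 := by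
      noncomm_ring
    rw [this, h6]; abel
  · have : (2 * r - 1) * (2 * star r - 1) = 2 * (r * star r * 2) - 2 * (r + star r) + 1 := by
      noncomm_ring
    rw [this, h7]; abel

/-- the Cayley transform as a unitary -/
def cay (b : selfAdjoint B) : unitary B := ⟨cay0 b.1, cay0_mem b.2⟩

end cay

/-! ### Group data -/

/-- involutions (including `1`) -/
abbrev Invol (Γ : Type*) [Group Γ] := {s : Γ // s * s = 1}

/-- standard basis vector -/
def ev {X : Type*} [DecidableEq X] (x : X) : EuclideanSpace ℂ X := EuclideanSpace.single x (1 : ℂ)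

/-- partial positive-definite kernels: positive forms on `ℂ^{[0..k] × B}` invariant under the
partial left action, normalised, and on which `g` acts as `-1` on the vector `(0, 1)`. -/
def PP {Γ : Type*} [Group Γ] [DecidableEq Γ] (B : Finset Γ) (k : ℕ) (o g : B) :
    Set (EuclideanSpace ℂ (Fin (k + 1) × B) →L[ℂ] EuclideanSpace ℂ (Fin (k + 1) × B)) :=
  {Φ | 0 ≤ Φ ∧
    (∀ (s : Γ) (i j : Fin (k + 1)) (a a' b b' : B), b.1 = s * a.1 → b'.1 = s * a'.1 →
      ⟪ev (i, b), Φ (ev (j, b'))⟫_ℂ = ⟪ev (i, a), Φ (ev (j, a'))⟫_ℂ) ∧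
    (∑ j : Fin (k + 1), (⟪ev (j, o), Φ (ev (j, o))⟫_ℂ).re = 1) ∧
    Φ (ev (0, g) + ev (0, o)) = 0}

/-- statement of the parametrised Gerstenhaber–Rothaus + Brouwer theorem (proved in `Top.lean`) -/
def TopStmt (B : Type*) [CStarAlgebra B] (S ι Z : Type*) [DecidableEq ι]
    [NormedAddCommGroup Z] : Prop :=
  ∀ (w : ι → FreeGroup (S ⊕ ι)) (d : ℕ), 0 < d →
    (∀ i j, Multiplicative.toAdd (expS (Sum.inr j) (w i)) = if i = j then (d : ℤ) else 0) →
    ∀ (b : S → Z → selfAdjoint B), (∀ s, Continuous (b s)) →
    ∀ (f : Z × (ι → unitary B) → Z), Continuous f → ∀ R : ℝ, (∀ p, ‖f p‖ ≤ R) →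
    ∃ (z : Z) (t : ι → unitary B), z = f (z, t) ∧
      ∀ i, FreeGroup.lift (Sum.elim (fun s => cay (b s z)) t) (w i) = 1

/-- statement of the von Neumann dimension lemma (proved in `LemN.lean`) -/
def LemNStmt (Γ : Type*) [Group Γ] [DecidableEq Γ] : Prop :=
  ∀ (B : Finset Γ) (k : ℕ) (o g : B), o.1 = 1 → g.1 * g.1 = 1 → g.1 ≠ 1 →
    ∀ (v : Fin k → EuclideanSpace ℂ (Fin (k + 1) × B)) (δ : ℝ), 0 < δ →
    ∃ Φ ∈ PP B k o g, ∀ l, (⟪v l, Φ (v l)⟫_ℂ).re < δ

end Crest.Agent.R174
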