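import Crest.Agent.R174.Deg1

/-! Homotopy invariance of the degree and the existence principle. -/

set_option autoImplicit false

open MeasureTheory VectorField Module

noncomputable section

namespace Crest.Agent.R174

variable {A : Type*} [CStarAlgebra A] [FiniteDimensional ℂ A]

/-- the determinant form of a basis as a continuous alternating map -/
def detC {D : ℕ} (b : Basis (Fin D) ℝ (sk A)) : sk A [⋀^Fin D]→L[ℝ] ℝ :=
  { b.det with
    cont := by
      change Continuous fun v => b.det v
      simp only [Basis.det_apply]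
      refine Continuous.matrix_det (continuous_matrix fun i j => ?_)
      simp only [Basis.toMatrix_apply]
      exact (b.coord i).continuous_of_finiteDimensional.comp (continuous_apply j) }

theorem detC_apply {D : ℕ} (b : Basis (Fin D) ℝ (sk A)) (v : Fin D → sk A) :
    detC b v = b.det v := rfl

variable (A) in
/-- `z ↦ (v ↦ pr (v z⋆))` -/
def LL : A →L[ℝ] A →L[ℝ] sk A :=
  LinearMap.toContinuousLinearMap
    { toFun := fun z => LinearMap.toContinuousLinearMap (pr A ∘ₗ LinearMap.mulRight ℝ (star z))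
      map_add' := fun z z' => by ext v; simp [mul_add]
      map_smul' := fun c z => by ext v; simp }

theorem LL_apply (z v : A) : LL A z v = pr A (v * star z) := rfl

/-- the weighted volume form on the ambient algebra -/
def vol {D : ℕ} (b : Basis (Fin D) ℝ (sk A)) (ψ : A → ℝ) (z : A) : A [⋀^Fin D]→L[ℝ] ℝ :=
  ψ z • (detC b).compContinuousLinearMap (LL A z)

theorem vol_diff {D : ℕ} (b : Basis (Fin D) ℝ (sk A)) {ψ : A → ℝ} (hψ : ContDiff ℝ 1 ψ) (z : A) :
    DifferentiableAt ℝ (vol b ψ) z :=
  (hψ.differentiable (by simp) z).smul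
    ((differentiableAt_const _).continuousAlternatingMapCompContinuousLinearMap
      (LL A).differentiableAt)

/-- the frame `∂_s, X_1, …, X_D` -/
def fr {D : ℕ} (b : Basis (Fin D) ℝ (sk A)) : Fin (D + 1) → ℝ × A → ℝ × A :=
  Fin.cons (fun _ => (1, 0)) fun i p => (0, (b i : A) * p.2)

omit [FiniteDimensional ℂ A] in
theorem fr_contDiff {D : ℕ} (b : Basis (Fin D) ℝ (sk A)) (i : Fin (D + 1)) :
    ContDiff ℝ 1 (fr b i) := by
  refine Fin.cases ?_ (fun i => ?_) i
  · exact contDiff_const
  · exact contDiff_const.prodMk (contDiff_const.mul contDiff_snd)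

omit [FiniteDimensional ℂ A] in
theorem fderiv_fr_succ {D : ℕ} (b : Basis (Fin D) ℝ (sk A)) (i : Fin D) (p v : ℝ × A) :
    fderiv ℝ (fr b i.succ) p v = (0, (b i : A) * v.2) := by
  have : HasFDerivAt (fr b i.succ) (ContinuousLinearMap.prod 0
      ((ContinuousLinearMap.mul ℝ A (b i)).comp (ContinuousLinearMap.snd ℝ ℝ A))) p :=
    (ContinuousLinearMap.prod (0 : ℝ × A →L[ℝ] ℝ)
      ((ContinuousLinearMap.mul ℝ A (b i)).comp (ContinuousLinearMap.snd ℝ ℝ A))).hasFDerivAt
  rw [this.fderiv]; rfl

omit [FiniteDimensional ℂ A] in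
theorem fr_bracket {D : ℕ} (b : Basis (Fin D) ℝ (sk A))
    (hb : ∀ i j, (⟨(b j : A) * b i - b i * b j, comm_mem (b j).2 (b i).2⟩ : sk A) ∈
        Submodule.span ℝ (b '' {l | l ≠ i ∧ l ≠ j})) (p : ℝ × A) (i j : Fin (D + 1))
    (hij : i < j) : lieBracket ℝ (fr b i) (fr b j) p ∈
      Submodule.span ℝ ((fr b · p) '' {l | l ≠ i ∧ l ≠ j}) := by
  obtain ⟨j, rfl⟩ := Fin.exists_succ_eq.2 (Fin.ne_zero_of_lt hij)
  rcases Fin.eq_zero_or_eq_succ i with rfl | ⟨i, rfl⟩
  · have : lieBracket ℝ (fr b 0) (fr b j.succ) p = 0 := by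
      rw [lieBracket, fderiv_fr_succ]
      have h0 : fr b 0 = fun _ => ((1, 0) : ℝ × A) := rfl
      rw [h0]; simp
    rw [this]; exact Submodule.zero_mem _
  · let M : sk A →ₗ[ℝ] ℝ × A :=
      LinearMap.inr ℝ ℝ A ∘ₗ LinearMap.mulRight ℝ p.2 ∘ₗ (sk A).subtype
    have hM : ∀ x : sk A, M x = (0, (x : A) * p.2) := fun _ => rfl
    have : lieBracket ℝ (fr b i.succ) (fr b j.succ) p =
        M ⟨(b j : A) * b i - b i * b j, comm_mem (b j).2 (b i).2⟩ := by
      rw [lieBracket, fderiv_fr_succ, fderiv_fr_succ, hM]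
      simp [fr, sub_mul, mul_assoc]
    rw [this]
    have h2 := Submodule.mem_map_of_mem (f := M) (hb i j)
    rw [Submodule.map_span] at h2
    refine Submodule.span_mono ?_ h2
    rintro _ ⟨_, ⟨l, ⟨h3, h4⟩, rfl⟩, rfl⟩
    exact ⟨l.succ, ⟨by simpa using h3, by simpa using h4⟩, rfl⟩

section homotopy

variable {H : ℝ × A → A} (hH : ∀ (s : ℝ) (t : unitary A), ContDiffAt ℝ 2 H (s, (t : A)))
  (hU : ∀ (s : ℝ) (t : unitary A), H (s, (t : A)) ∈ unitary A)

omit [FiniteDimensional ℂ A] in
include hH hU in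
theorem tangent_fr {D : ℕ} (b : Basis (Fin D) ℝ (sk A)) (s : ℝ) (t : unitary A)
    (i : Fin (D + 1)) :
    fderiv ℝ H (s, t) (fr b i (s, t)) * star (H (s, t)) ∈ sk A := by
  refine Fin.cases ?_ (fun i => ?_) i
  · have h1 : HasDerivAt (fun r : ℝ => ((r, (t : A)) : ℝ × A)) (1, 0) s :=
      (hasDerivAt_id s).prodMk (hasDerivAt_const s _)
    have h2 := ((hH s t).differentiableAt (by simp)).hasFDerivAt.comp_hasDerivAt s h1
    exact tangent_mem (γ := fun r => H (r, t)) (fun r => hU r t) h2
  · have h1 : HasDerivAt (fun r : ℝ => ((s, NormedSpace.exp (r • (b i : A)) * t) : ℝ × A))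
        (0, (b i : A) * (NormedSpace.exp ((0 : ℝ) • (b i : A)) * t)) 0 :=
      (hasDerivAt_const _ _).prodMk (hasDerivAt_exp_mul _ _ 0)
    have h0 : NormedSpace.exp ((0 : ℝ) • (b i : A)) * t = t := by simp
    have h3 : HasFDerivAt H (fderiv ℝ H (s, t))
        ((fun r : ℝ => ((s, NormedSpace.exp (r • (b i : A)) * t) : ℝ × A)) 0) := by
      simp only [h0]
      exact ((hH s t).differentiableAt (by simp)).hasFDerivAt
    have h2 := h3.comp_hasDerivAt 0 h1
    have h4 := tangent_mem (γ := fun r : ℝ => H (s, NormedSpace.exp (r • (b i : A)) * t))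
      (fun r => hU s (⟨_, exp_smul_mem (b i).2 r⟩ * t)) h2
    simp only [h0] at h4
    exact h4

/-- the coefficient functions of the pulled-back form -/
def coef {D : ℕ} (b : Basis (Fin D) ℝ (sk A)) (ψ : A → ℝ) (H : ℝ × A → A) (i : Fin (D + 1))
    (p : ℝ × A) : ℝ :=
  (vol b ψ (H p)).compContinuousLinearMap (fderiv ℝ H p) (i.removeNth (fr b · p))

include hH in
theorem coef_contDiffAt {D : ℕ} (b : Basis (Fin D) ℝ (sk A)) {ψ : A → ℝ} (hψ : ContDiff ℝ 1 ψ)
    (i : Fin (D + 1)) (s : ℝ) (t : unitary A) : ContDiffAt ℝ 1 (coef b ψ H i) (s, (t : A)) := by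
  have h1 : ContDiffAt ℝ 1 H (s, (t : A)) := (hH s t).of_le (by norm_num)
  have h2 : ContDiffAt ℝ 1 (fderiv ℝ H) (s, (t : A)) :=
    (hH s t).fderiv_right (m := 1) (by norm_num)
  have : coef b ψ H i = fun p => ψ (H p) * (detC b).toContinuousMultilinearMap
      (fun k => LL A (H p) (fderiv ℝ H p (fr b (i.succAbove k) p))) := rfl
  rw [this]
  refine (hψ.contDiffAt.comp _ h1).mul ?_
  refine (detC b).toContinuousMultilinearMap.contDiff.contDiffAt.comp _ ?_
  refine contDiffAt_pi.2 fun k => ?_
  exact ((LL A).contDiff.contDiffAt.comp _ h1).clm_apply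
    (h2.clm_apply (fr_contDiff b _).contDiffAt)

include hH in
theorem coef_zero {D : ℕ} (b : Basis (Fin D) ℝ (sk A)) (ψ : A → ℝ) (s : ℝ) (t : unitary A) :
    coef b ψ H 0 (s, t) = ψ (H (s, t)) * LinearMap.det (jac (fun x => H (s, x)) t) := by
  have h1 : HasFDerivAt (fun x : A => H (s, x))
      ((fderiv ℝ H (s, t)).comp (ContinuousLinearMap.inr ℝ ℝ A)) t :=
    ((hH s t).differentiableAt (by simp)).hasFDerivAt.comp (t : A) (hasFDerivAt_prodMk_right s _)
  have : coef b ψ H 0 (s, t) = ψ (H (s, t)) * b.det (jac (fun x => H (s, x)) t ∘ b) := by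
    change ψ (H (s, t)) * b.det _ = _
    congr 2
    funext k
    rw [Function.comp_apply, jac_apply, h1.fderiv]
    rfl
  rw [this, Basis.det_comp, Basis.det_self, mul_one]

include hH hU in
theorem closed_identity {b : Basis (Fin (finrank ℝ (sk A))) ℝ (sk A)}
    (hb : ∀ i j, (⟨(b j : A) * b i - b i * b j, comm_mem (b j).2 (b i).2⟩ : sk A) ∈
        Submodule.span ℝ (b '' {l | l ≠ i ∧ l ≠ j})) {ψ : A → ℝ} (hψ : ContDiff ℝ 1 ψ)
    (s : ℝ) (t : unitary A) :
    ∑ i : Fin (finrank ℝ (sk A) + 1),
      (-1) ^ i.val • fderiv ℝ (coef b ψ H i) (s, t) (fr b i (s, t)) = 0 := by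
  have h1 : DifferentiableAt ℝ H (s, (t : A)) := (hH s t).differentiableAt (by simp)
  have h2 : DifferentiableAt ℝ (fderiv ℝ H) (s, (t : A)) :=
    ((hH s t).fderiv_right (m := 1) (by norm_num)).differentiableAt (by simp)
  have hΩ : DifferentiableAt ℝ
      (fun p => (vol b ψ (H p)).compContinuousLinearMap (fderiv ℝ H p)) (s, (t : A)) :=
    ((vol_diff b hψ _).comp _ h1).continuousAlternatingMapCompContinuousLinearMap h2
  have key := extDeriv_vf (V := fr b) hΩ
    (fun i => (fr_contDiff b i).differentiable (by simp) _) (fr_bracket b hb _)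
  rw [extDeriv_pullback (vol_diff b hψ _) (hH s t) (by simp)] at key
  refine Eq.trans key.symm ?_
  rw [ContinuousAlternatingMap.compContinuousLinearMap_apply]
  refine (extDeriv (vol b ψ) (H (s, t))).toAlternatingMap.map_linearDependent _ fun hli => ?_
  let η : Fin (finrank ℝ (sk A) + 1) → sk A := fun i => ⟨_, tangent_fr hH hU b s t i⟩
  have h3 : (fderiv ℝ H (s, t)) ∘ (fun i => fr b i (s, t)) =
      (LinearMap.mulRight ℝ (H (s, t)) ∘ₗ (sk A).subtype) ∘ η := by
    funext i
    simp only [η, Function.comp_apply, LinearMap.comp_apply, Submodule.subtype_apply,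
      LinearMap.mulRight_apply]
    rw [mul_assoc, Unitary.star_mul_self_of_mem (hU s t), mul_one]
  rw [h3] at hli
  have h4 := (LinearIndependent.of_comp _ hli).fintype_card_le_finrank
  simp at h4

end homotopy

theorem degHomotopy {τ : A →ₗ[ℝ] ℝ} (hτ : IsFTrace A τ) : DegHomotopy A := by
  intro H ψ hH hU hψ
  obtain ⟨b, hb⟩ := exists_good_basis hτ
  have hd : ∀ s, HasDerivAt (fun s => ∫ t : unitary A, coef b ψ H 0 (s, t) ∂haarU A) 0 s := by
    intro s
    have h1 := hasDerivAt_int_param (fun s t => coef_contDiffAt hH b hψ 0 s t) s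
    have h2 : ∀ t : unitary A, fderiv ℝ (coef b ψ H 0) (s, t) (1, 0) =
        ∑ i : Fin (finrank ℝ (sk A)), (-1 : ℝ) ^ i.val *
          fderiv ℝ (coef b ψ H i.succ) (s, t) (0, (b i : A) * t) := by
      intro t
      have := closed_identity hH hU hb hψ s t
      rw [Fin.sum_univ_succ] at this
      simp only [Fin.val_zero, pow_zero, one_smul, Fin.val_succ, pow_succ, mul_neg, mul_one,
        neg_smul, Finset.sum_neg_distrib] at this
      rw [← sub_eq_add_neg, sub_eq_zero] at this
      refine Eq.trans this (Finset.sum_congr rfl fun i _ => ?_)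
      rw [zsmul_eq_mul]
      simp [fr]
    simp only [h2] at h1
    rw [integral_finsetSum] at h1
    · simp only [integral_const_mul,
        integral_vf_zero (fun s t => coef_contDiffAt hH b hψ _ s t) s (b _).2, mul_zero,
        Finset.sum_const_zero] at h1
      exact h1
    · intro i _
      exact (integrable_cont
        (continuous_fderiv_vf (fun s t => coef_contDiffAt hH b hψ _ s t) s _)).const_mul _
  have := is_const_of_deriv_eq_zero (fun s => (hd s).differentiableAt) (fun s => (hd s).deriv) 0 1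
  simp only [coef_zero hH] at this
  exact this

theorem continuous_det_jac {F : A → A} (hF : ∀ t : unitary A, ContDiffAt ℝ 2 F t) :
    Continuous fun t : unitary A => LinearMap.det (jac F t) := by
  let b := Module.finBasis ℝ (sk A)
  have hH : ∀ (s : ℝ) (t : unitary A), ContDiffAt ℝ 2 (fun p : ℝ × A => F p.2) (s, (t : A)) :=
    fun s t => ContDiffAt.comp (f := fun p : ℝ × A => p.2) _ (hF t) contDiffAt_snd
  have h1 : (fun t : unitary A => LinearMap.det (jac F t)) =
      fun t : unitary A => coef b (fun _ => 1) (fun p : ℝ × A => F p.2) 0 (0, t) := by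
    funext t; rw [coef_zero hH, one_mul]
  rw [h1]
  have hc : Continuous fun t : unitary A => ((0, (t : A)) : ℝ × A) := by fun_prop
  exact continuous_iff_continuousAt.2 fun t =>
    ContinuousAt.comp (f := fun t : unitary A => ((0, (t : A)) : ℝ × A))
      (coef_contDiffAt hH b contDiff_const 0 0 t).continuousAt hc.continuousAt

omit [FiniteDimensional ℂ A] in
theorem jac_mul_const {F : A → A} {t : A} (hF : DifferentiableAt ℝ F t) {z : A}
    (hz : z ∈ unitary A) : jac (fun x => F x * z) t = jac F t := by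
  ext ξ
  rw [jac_apply, jac_apply, fderiv_mul_const' hF, star_mul]
  simp only [ContinuousLinearMap.smul_apply, MulOpposite.smul_eq_mul_unop, MulOpposite.unop_op]
  rw [mul_assoc, ← mul_assoc z, Unitary.mul_star_self_of_mem hz, one_mul]

theorem exists_eq_one (hA : DegHomotopy A)
    (F : A → A) (hF : ∀ t : unitary A, ContDiffAt ℝ 2 F t) (hU : ∀ t : unitary A, F t ∈ unitary A)
    (h : deg (fun _ => 1) F ≠ 0) : ∃ t : unitary A, F t = 1 := by
  by_contra hne
  push Not at hne
  have hFc : Continuous fun t : unitary A => F t :=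
    continuous_iff_continuousAt.2 fun t =>
      ContinuousAt.comp (f := fun t : unitary A => (t : A)) (hF t).continuousAt
        continuous_subtype_val.continuousAt
  have hcl : IsClosed (Set.range fun t : unitary A => F t) := (isCompact_range hFc).isClosed
  have hnh : (Set.range fun t : unitary A => F t)ᶜ ∈ nhds (1 : A) :=
    hcl.isOpen_compl.mem_nhds (by rintro ⟨t, ht⟩; exact hne t ht)
  obtain ⟨ψ, hψs, -, hψ, hψr, hψ1⟩ := exists_contDiff_tsupport_subset (n := 1) hnh
  have hψ0 : ∀ t : unitary A, ψ (F t) = 0 := fun t =>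
    image_eq_zero_of_notMem_tsupport fun h => hψs h ⟨t, rfl⟩
  have hψ' : ContDiff ℝ 1 ψ := hψ
  -- the weighted degree of every translate vanishes
  have hz : ∀ z : unitary A,
      ∫ t : unitary A, ψ (F t * z) * LinearMap.det (jac F t) ∂haarU A = 0 := by
    intro z
    obtain ⟨a, ha, haz⟩ := exists_exp_sk z
    have h1 := hA (fun p => F p.2 * NormedSpace.exp (p.1 • a)) ψ
      (fun s t => (ContDiffAt.comp (f := fun p : ℝ × A => p.2) _ (hF t) contDiffAt_snd).mul
        (((contDiff_exp_smul a 2).comp contDiff_fst).contDiffAt))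
      (fun s t => mul_mem (hU t) (exp_smul_mem ha s)) hψ'
    simp only [zero_smul, NormedSpace.exp_zero, mul_one, one_smul, haz, deg, hψ0, zero_mul,
      integral_zero] at h1
    rw [h1]
    refine integral_congr_ae (Filter.Eventually.of_forall fun t => ?_)
    simp only
    rw [jac_mul_const ((hF t).differentiableAt (by simp)) z.2]
  have hcont : Continuous fun p : unitary A × unitary A =>
      ψ (F p.2 * p.1) * LinearMap.det (jac F p.2) :=
    (hψ'.continuous.comp ((hFc.comp continuous_snd).mul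
      (continuous_subtype_val.comp continuous_fst))).mul
      ((continuous_det_jac hF).comp continuous_snd)
  have hswap := integral_integral_swap (μ := haarU A) (ν := haarU A)
    (f := fun z t : unitary A => ψ (F t * z) * LinearMap.det (jac F t))
    (integrable_cont hcont)
  simp only [hz, integral_zero, integral_mul_const] at hswap
  have hinv : ∀ t : unitary A, ∫ z : unitary A, ψ (F t * z) ∂haarU A =
      ∫ z : unitary A, ψ z ∂haarU A := fun t =>
    integral_mul_left_eq_self (fun z : unitary A => ψ z) ⟨F t, hU t⟩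
  simp only [hinv, integral_const_mul] at hswap
  have hpos : 0 < ∫ z : unitary A, ψ z ∂haarU A := by
    refine Continuous.integral_pos_of_hasCompactSupport_nonneg_nonzero (x := 1)
      (hψ'.continuous.comp continuous_subtype_val) (HasCompactSupport.of_compactSpace _)
      (fun z => (hψr ⟨_, rfl⟩).1) ?_
    simp [hψ1]
  refine h ?_
  simp only [deg, one_mul]
  exact (mul_eq_zero.1 hswap.symm).resolve_left hpos.ne'

end Crest.Agent.R174
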