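import Crest.Agent.R174.Exp

/-! General lemmas for homotopy invariance of the degree. -/

set_option autoImplicit false

open MeasureTheory VectorField Module

noncomputable section

namespace Crest.Agent.R174

section form

variable {E : Type*} [NormedAddCommGroup E] [NormedSpace ℝ E]

theorem alt_vecCons_zero {n : ℕ} (f : E [⋀^Fin (n + 1)]→L[ℝ] ℝ) (V : Fin (n + 2) → E)
    (i j : Fin (n + 1)) (hj : i ≤ j) (w : E)
    (hw : w ∈ Submodule.span ℝ (V '' {l | l ≠ i.castSucc ∧ l ≠ j.succ})) :
    f (Matrix.vecCons w (j.removeNth <| i.castSucc.removeNth V)) = 0 := by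
  have H₁ : i.castSucc.succAbove j = j.succ := by simp [Fin.succAbove_of_le_castSucc, hj]
  induction hw using Submodule.span_induction with
  | mem x hx =>
    obtain ⟨l, ⟨h1, h2⟩, rfl⟩ := hx
    obtain ⟨l', rfl⟩ := Fin.exists_succAbove_eq h1
    have h3 : l' ≠ j := by rintro rfl; exact h2 H₁
    obtain ⟨m, rfl⟩ := Fin.exists_succAbove_eq h3
    refine f.map_eq_zero_of_eq _ (i := 0) (j := m.succ) ?_ (Fin.succ_ne_zero m).symm
    simp [Fin.removeNth]
  | zero => exact f.map_coord_zero 0 (by simp)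
  | add x y _ _ hx hy =>
    rw [ContinuousAlternatingMap.vecCons_add, hx, hy, add_zero]
  | smul c x _ hx =>
    rw [ContinuousAlternatingMap.vecCons_smul, hx, smul_zero]

theorem extDeriv_vf {n : ℕ} {ω : E → E [⋀^Fin n]→L[ℝ] ℝ} {V : Fin (n + 1) → E → E} {x : E}
    (hω : DifferentiableAt ℝ ω x) (hV : ∀ i, DifferentiableAt ℝ (V i) x)
    (hbr : ∀ i j, i < j → lieBracket ℝ (V i) (V j) x ∈
      Submodule.span ℝ ((V · x) '' {l | l ≠ i ∧ l ≠ j})) :
    extDeriv ω x (V · x) =
      ∑ i, (-1) ^ i.val • fderiv ℝ (fun x ↦ ω x (i.removeNth (V · x))) x (V i x) := by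
  cases n with
  | zero =>
    refine extDeriv_apply_vectorField_of_pairwise_commute hω hV ?_
    intro i j hij
    exact (hij (Subsingleton.elim (α := Fin 1) i j)).elim
  | succ n =>
    rw [extDeriv_apply_vectorField hω hV, sub_eq_self]
    refine Fintype.sum_eq_zero _ fun i ↦ Finset.sum_eq_zero fun j hj ↦ ?_
    have hj' : i ≤ j := by simpa using hj
    rw [alt_vecCons_zero (ω x) (V · x) i j hj' _ (hbr _ _ (by simpa using hj')), smul_zero]

end form

section integ

variable {K : Type*} [TopologicalSpace K] [CompactSpace K] [MeasurableSpace K] [BorelSpace K]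
  {μ : Measure K} [IsFiniteMeasure μ]

theorem integrable_cont {g : K → ℝ} (hg : Continuous g) : Integrable g μ :=
  hg.integrable_of_hasCompactSupport (HasCompactSupport.of_compactSpace g)

theorem hasDerivAt_integral_cpt {G G' : ℝ → K → ℝ}
    (hG : Continuous fun p : ℝ × K => G p.1 p.2) (hG' : Continuous fun p : ℝ × K => G' p.1 p.2)
    (hd : ∀ r t, HasDerivAt (G · t) (G' r t) r) (r₀ : ℝ) :
    HasDerivAt (fun r => ∫ t, G r t ∂μ) (∫ t, G' r₀ t ∂μ) r₀ := by
  have hc : IsCompact (Metric.closedBall r₀ 1 ×ˢ (Set.univ : Set K)) :=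
    (isCompact_closedBall r₀ 1).prod isCompact_univ
  obtain ⟨C, hC⟩ := hc.exists_bound_of_continuousOn hG'.continuousOn
  have h1 : ∀ r, Continuous (G r) := fun r => hG.comp (Continuous.prodMk_right r)
  have h2 : ∀ r, Continuous (G' r) := fun r => hG'.comp (Continuous.prodMk_right r)
  refine (hasDerivAt_integral_of_dominated_loc_of_deriv_le (μ := μ) (bound := fun _ => C)
    (Metric.closedBall_mem_nhds r₀ one_pos)
    (Filter.Eventually.of_forall fun r => (integrable_cont (h1 r)).aestronglyMeasurable)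
    (integrable_cont (h1 r₀)) (integrable_cont (h2 r₀)).aestronglyMeasurable
    (Filter.Eventually.of_forall fun t r hr => hC (r, t) ⟨hr, trivial⟩)
    (integrable_const C) (Filter.Eventually.of_forall fun t r _ => hd r t)).2

end integ

section alg

variable {A : Type*} [CStarAlgebra A]

theorem tangent_mem {γ : ℝ → A} (hγ : ∀ r, γ r ∈ unitary A) {v : A} {r₀ : ℝ}
    (hd : HasDerivAt γ v r₀) : v * star (γ r₀) ∈ sk A := by
  have h1 : HasDerivAt (fun r => γ r * star (γ r)) (v * star (γ r₀) + γ r₀ * star v) r₀ :=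
    hd.mul hd.star
  have h2 : (fun r => γ r * star (γ r)) = fun _ => 1 :=
    funext fun r => Unitary.mul_star_self_of_mem (hγ r)
  rw [h2] at h1
  have h3 := h1.unique (hasDerivAt_const r₀ (1 : A))
  rw [mem_sk, star_mul, star_star]
  exact eq_neg_of_add_eq_zero_right h3

theorem hasDerivAt_exp_mul (ξ t : A) (r : ℝ) :
    HasDerivAt (fun r : ℝ => NormedSpace.exp (r • ξ) * t) (ξ * (NormedSpace.exp (r • ξ) * t)) r := by
  have := (hasDerivAt_exp_smul_const' (𝕂 := ℝ) ξ r).mul_const t
  rwa [mul_assoc] at this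

theorem comm_mem {x y : A} (hx : x ∈ sk A) (hy : y ∈ sk A) : x * y - y * x ∈ sk A := by
  rw [mem_sk, star_sub, star_mul, star_mul, mem_sk.1 hx, mem_sk.1 hy]
  noncomm_ring

variable [FiniteDimensional ℂ A]

theorem exists_good_basis {τ : A →ₗ[ℝ] ℝ} (hτ : IsFTrace A τ) :
    ∃ b : Basis (Fin (finrank ℝ (sk A))) ℝ (sk A), ∀ i j,
      (⟨(b j : A) * b i - b i * b j, comm_mem (b j).2 (b i).2⟩ : sk A) ∈
        Submodule.span ℝ (b '' {l | l ≠ i ∧ l ≠ j}) := by
  let β : LinearMap.BilinForm ℝ (sk A) :=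
    LinearMap.mk₂ ℝ (fun x y : sk A => τ ((x : A) * y))
      (fun x x' y => by simp [add_mul]) (fun c x y => by simp)
      (fun x y y' => by simp [mul_add]) (fun c x y => by simp)
  have hβ : ∀ x y : sk A, β x y = τ ((x : A) * y) := fun _ _ => rfl
  obtain ⟨b, hb⟩ := LinearMap.BilinForm.exists_orthogonal_basis (B := β)
    ⟨fun x y => by simp only [hβ]; exact hτ.comm _ _⟩
  have hne : ∀ i, β (b i) (b i) ≠ 0 := by
    intro i h
    have h0 : (b i : A) ≠ 0 := fun h => b.ne_zero i (Subtype.ext h)
    have := hτ.pos _ h0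
    rw [mem_sk.1 (b i).2, neg_mul, map_neg, ← hβ, h] at this
    simp at this
  have hrepr : ∀ (x : sk A) i, β (b i) x = 0 → b.repr x i = 0 := by
    intro x i h
    conv_lhs at h => rw [← b.sum_repr x]
    rw [map_sum, Finset.sum_eq_single i] at h
    · rw [map_smul, smul_eq_mul] at h
      exact (mul_eq_zero.1 h).resolve_right (hne i)
    · intro j _ hj
      rw [map_smul, show β (b i) (b j) = 0 from hb (Ne.symm hj), smul_zero]
    · simp
  refine ⟨b, fun i j => ?_⟩
  rw [Basis.mem_span_image]
  intro l hl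
  rw [Finset.mem_coe, Finsupp.mem_support_iff] at hl
  constructor
  · rintro rfl
    refine hl (hrepr _ _ ?_)
    rw [hβ]
    simp only [mul_sub, map_sub]
    rw [← mul_assoc, hτ.comm (_ * _), sub_self]
  · rintro rfl
    refine hl (hrepr _ _ ?_)
    rw [hβ]
    simp only [mul_sub, map_sub]
    rw [← mul_assoc (b l : A) (b i) (b l), hτ.comm (_ * _) (b l : A), sub_self]

/-- derivative in the homotopy parameter under the integral -/
theorem hasDerivAt_int_param {a : ℝ × A → ℝ}
    (ha : ∀ (s : ℝ) (t : unitary A), ContDiffAt ℝ 1 a (s, (t : A))) (s₀ : ℝ) :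
    HasDerivAt (fun s => ∫ t : unitary A, a (s, t) ∂haarU A)
      (∫ t : unitary A, fderiv ℝ a (s₀, t) (1, 0) ∂haarU A) s₀ := by
  have hc : Continuous fun p : ℝ × unitary A => ((p.1, (p.2 : A)) : ℝ × A) := by fun_prop
  refine hasDerivAt_integral_cpt (G := fun s (t : unitary A) => a (s, t))
    (G' := fun s (t : unitary A) => fderiv ℝ a (s, t) (1, 0)) ?_ ?_ ?_ s₀
  · exact continuous_iff_continuousAt.2 fun p =>
      ContinuousAt.comp (f := fun p : ℝ × unitary A => ((p.1, (p.2 : A)) : ℝ × A))
        (ha p.1 p.2).continuousAt hc.continuousAt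
  · refine Continuous.clm_apply (continuous_iff_continuousAt.2 fun p => ?_) continuous_const
    exact ContinuousAt.comp (f := fun p : ℝ × unitary A => ((p.1, (p.2 : A)) : ℝ × A))
        ((ha p.1 p.2).fderiv_right (m := 0) (by simp)).continuousAt hc.continuousAt
  · intro r t
    have h1 : HasDerivAt (fun r : ℝ => ((r, (t : A)) : ℝ × A)) (1, 0) r :=
      (hasDerivAt_id r).prodMk (hasDerivAt_const r _)
    exact ((ha r t).differentiableAt (by simp)).hasFDerivAt.comp_hasDerivAt r h1

theorem continuous_fderiv_vf {a : ℝ × A → ℝ}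
    (ha : ∀ (s : ℝ) (t : unitary A), ContDiffAt ℝ 1 a (s, (t : A))) (s : ℝ) (ξ : A) :
    Continuous fun t : unitary A => fderiv ℝ a (s, t) (0, ξ * t) := by
  have hc : Continuous fun t : unitary A => ((s, (t : A)) : ℝ × A) := by fun_prop
  refine Continuous.clm_apply (continuous_iff_continuousAt.2 fun p => ?_) (by fun_prop)
  exact ContinuousAt.comp (f := fun t : unitary A => ((s, (t : A)) : ℝ × A))
    ((ha s p).fderiv_right (m := 0) (by simp)).continuousAt hc.continuousAt

/-- integration by parts along a right-invariant field -/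
theorem integral_vf_zero {a : ℝ × A → ℝ}
    (ha : ∀ (s : ℝ) (t : unitary A), ContDiffAt ℝ 1 a (s, (t : A))) (s : ℝ) {ξ : A}
    (hξ : ξ ∈ sk A) : ∫ t : unitary A, fderiv ℝ a (s, t) (0, ξ * t) ∂haarU A = 0 := by
  let u : ℝ → unitary A := fun r => ⟨NormedSpace.exp (r • ξ), exp_smul_mem hξ r⟩
  have hu : Continuous u := continuous_induced_rng.2 (contDiff_exp_smul ξ 0).continuous
  have hm : Continuous fun p : ℝ × unitary A => u p.1 * p.2 := by fun_prop
  have hc : Continuous fun t : unitary A => ((s, (t : A)) : ℝ × A) := by fun_prop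
  have ha0 : Continuous fun t : unitary A => a (s, t) :=
    continuous_iff_continuousAt.2 fun p =>
      ContinuousAt.comp (f := fun t : unitary A => ((s, (t : A)) : ℝ × A))
        (ha s p).continuousAt hc.continuousAt
  have h := hasDerivAt_integral_cpt (μ := haarU A)
    (G := fun r (t : unitary A) => a (s, (u r * t : unitary A)))
    (G' := fun r (t : unitary A) =>
      fderiv ℝ a (s, (u r * t : unitary A)) (0, ξ * (u r * t : unitary A)))
    (ha0.comp hm) ((continuous_fderiv_vf ha s ξ).comp hm) ?_ 0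
  · have h2 : (fun r => ∫ t : unitary A, a (s, (u r * t : unitary A)) ∂haarU A) =
        fun _ => ∫ t : unitary A, a (s, t) ∂haarU A :=
      funext fun r => integral_mul_left_eq_self (fun t : unitary A => a (s, t)) (u r)
    rw [h2] at h
    have h3 := h.unique (hasDerivAt_const _ _)
    have h4 : u 0 = 1 := Subtype.ext (by simp [u])
    simpa [h4] using h3
  · intro r t
    have h1 : HasDerivAt (fun r : ℝ => ((s, ((u r * t : unitary A) : A)) : ℝ × A))
        (0, ξ * (u r * t : unitary A)) r :=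
      (hasDerivAt_const r _).prodMk (hasDerivAt_exp_mul ξ t r)
    exact ((ha s (u r * t)).differentiableAt (by simp)).hasFDerivAt.comp_hasDerivAt r h1

end alg

end Crest.Agent.R174
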