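import Crest.Agent.R174.Defs

/-! Every unitary of a finite-dimensional C⋆-algebra is an exponential. -/

set_option autoImplicit false

open Complex selfAdjoint Unitary Polynomial

noncomputable section

namespace Crest.Agent.R174

theorem finite_spec {A : Type*} [CStarAlgebra A] [FiniteDimensional ℂ A] (a : A) :
    (spectrum ℂ a).Finite := by
  have hi : IsIntegral ℂ a := Algebra.IsIntegral.isIntegral a
  have hp : minpoly ℂ a ≠ 0 := minpoly.ne_zero hi
  rcases subsingleton_or_nontrivial A with h | h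
  · rw [spectrum.of_subsingleton]; exact Set.finite_empty
  refine ((minpoly ℂ a).roots.toFinset.finite_toSet).subset fun z hz => ?_
  have h1 := spectrum.subset_polynomial_aeval a (minpoly ℂ a) ⟨z, hz, rfl⟩
  rw [minpoly.aeval, spectrum.zero_eq] at h1
  simp only [Finset.mem_coe, Multiset.mem_toFinset, mem_roots hp, IsRoot.def]
  exact h1

theorem exists_exp {A : Type*} [CStarAlgebra A] [FiniteDimensional ℂ A] (u : unitary A) :
    ∃ x : selfAdjoint A, selfAdjoint.expUnitary x = u := by
  refine ⟨argSelfAdjoint u, ?_⟩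
  ext
  have : ContinuousOn arg (spectrum ℂ (u : A)) := (finite_spec _).continuousOn _
  rw [expUnitary_coe, argSelfAdjoint_coe, ← CFC.exp_eq_normedSpace_exp (𝕜 := ℂ),
    ← cfc_comp_smul .., ← cfc_comp' ..]
  conv_rhs => rw [← cfc_id' ℂ (u : A)]
  refine cfc_congr fun y hy ↦ ?_
  have hy₁ : ‖y‖ = 1 := spectrum.norm_eq_one_of_unitary u.2 hy
  have : I * y.arg = log y :=
    Complex.ext (by simp [log_re, spectrum.norm_eq_one_of_unitary u.2 hy]) (by simp [log_im])
  simpa [← exp_eq_exp_ℂ, this] using exp_log (by aesop)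

/-- the smooth path `s ↦ exp (s • a)` -/
theorem contDiff_exp_smul {A : Type*} [CStarAlgebra A] (a : A) (n : WithTop ℕ∞) :
    ContDiff ℝ n fun s : ℝ => NormedSpace.exp (s • a) := by
  have h : ContDiff ℝ n (NormedSpace.exp : A → A) :=
    contDiff_iff_contDiffAt.2 fun x => (NormedSpace.exp_analytic (𝕂 := ℝ) x).contDiffAt
  exact h.comp (contDiff_id.smul contDiff_const)

theorem exp_smul_mem {A : Type*} [CStarAlgebra A] {a : A} (ha : a ∈ sk A) (s : ℝ) :
    NormedSpace.exp (s • a) ∈ unitary A := by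
  letI : NormedAlgebra ℚ A := NormedAlgebra.restrictScalars ℚ ℂ A
  apply NormedSpace.exp_mem_unitary_of_mem_skewAdjoint
  rw [skewAdjoint.mem_iff]
  exact mem_sk.1 ((sk A).smul_mem s ha)

/-- every unitary is `exp a` with `a` skew-adjoint -/
theorem exists_exp_sk {A : Type*} [CStarAlgebra A] [FiniteDimensional ℂ A] (u : unitary A) :
    ∃ a ∈ sk A, NormedSpace.exp a = (u : A) := by
  obtain ⟨x, rfl⟩ := exists_exp u
  refine ⟨I • (x : A), ?_, rfl⟩
  rw [mem_sk, star_smul, x.2.star_eq, Complex.star_def, conj_I, neg_smul]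

end Crest.Agent.R174
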