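import Crest.Agent.R174.Defs

/-! Row 174: Hilbert-space estimates for the Cayley transform and for words of unitaries. -/

set_option autoImplicit false

open scoped InnerProductSpace

noncomputable section

namespace Crest.Agent.R174.FinA

variable {H : Type*} [NormedAddCommGroup H] [InnerProductSpace ℂ H] [CompleteSpace H]

theorem sa_yy (Y : H →L[ℂ] H) (κ : ℝ) : IsSelfAdjoint (κ • (Y * star Y)) := by
  rw [IsSelfAdjoint, star_smul, star_mul, star_star, star_trivial]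

/-- the self-adjoint element `κ Y Y⋆` -/
def bb (Y : H →L[ℂ] H) (κ : ℝ) : selfAdjoint (H →L[ℂ] H) := ⟨κ • (Y * star Y), sa_yy Y κ⟩

/-- the resolvent `(1 + i κ Y Y⋆)⁻¹` -/
def res (Y : H →L[ℂ] H) (κ : ℝ) : H →L[ℂ] H :=
  Ring.inverse (1 + Complex.I • (κ • (Y * star Y)))

/-- the Cayley transform of `κ Y Y⋆` -/
def cayY (Y : H →L[ℂ] H) (κ : ℝ) : unitary (H →L[ℂ] H) := cay (bb Y κ)

theorem mul_res (Y : H →L[ℂ] H) (κ : ℝ) :
    (1 + Complex.I • (κ • (Y * star Y))) * res Y κ = 1 :=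
  Ring.mul_inverse_cancel _ (isUnit_cay (sa_yy Y κ))

theorem res_mul (Y : H →L[ℂ] H) (κ : ℝ) :
    res Y κ * (1 + Complex.I • (κ • (Y * star Y))) = 1 :=
  Ring.inverse_mul_cancel _ (isUnit_cay (sa_yy Y κ))

theorem cay_apply (Y : H →L[ℂ] H) (κ : ℝ) (x : H) :
    (cayY Y κ : H →L[ℂ] H) x = res Y κ x + res Y κ x - x := by
  change (2 * res Y κ - 1) x = _
  rw [two_mul]
  rfl

theorem res_eq (Y : H →L[ℂ] H) (κ : ℝ) (x : H) :
    res Y κ x + Complex.I • (κ • res Y κ (Y (star Y x))) = x := by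
  have h := congrArg (fun T : H →L[ℂ] H => T x) (res_mul Y κ)
  simpa [map_add] using h

theorem res_eq' (Y : H →L[ℂ] H) (κ : ℝ) (x : H) :
    res Y κ x + Complex.I • (κ • Y (star Y (res Y κ x))) = x := by
  have h := congrArg (fun T : H →L[ℂ] H => T x) (mul_res Y κ)
  simpa [map_add] using h

/-- key estimate -/
theorem norm_res_le (Y : H →L[ℂ] H) {θ : ℝ} (hθ : 0 < θ) (x : H) :
    ‖res Y (θ ^ 2)⁻¹ (Y x)‖ ≤ θ * ‖x‖ := by
  set y := res Y (θ ^ 2)⁻¹ (Y x) with hy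
  have h := res_eq' Y (θ ^ 2)⁻¹ (Y x)
  rw [← hy] at h
  set z := star Y y with hz
  have h1 : ⟪y, Y x⟫_ℂ = ⟪z, x⟫_ℂ := by
    rw [hz, ContinuousLinearMap.star_eq_adjoint, ContinuousLinearMap.adjoint_inner_left]
  have h2 : ⟪y, Y z⟫_ℂ = ((‖z‖ ^ 2 : ℝ) : ℂ) := by
    rw [← ContinuousLinearMap.adjoint_inner_left, ← ContinuousLinearMap.star_eq_adjoint, ← hz,
      inner_self_eq_norm_sq_to_K]
    simp
  have h3 : ⟪y, Y x⟫_ℂ = ((‖y‖ ^ 2 : ℝ) : ℂ) + Complex.I * (((θ ^ 2)⁻¹ * ‖z‖ ^ 2 : ℝ) : ℂ) := by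
    conv_lhs => rw [← h]
    rw [inner_add_right, inner_smul_right, inner_self_eq_norm_sq_to_K,
      ← Complex.coe_smul, inner_smul_right, h2]
    push_cast
    rfl
  have h4 : ‖⟪z, x⟫_ℂ‖ ≤ ‖z‖ * ‖x‖ := norm_inner_le_norm _ _
  rw [← h1, h3] at h4
  have h5 : ‖y‖ ^ 2 ≤ ‖z‖ * ‖x‖ := by
    refine le_trans ?_ ((Complex.re_le_norm _).trans h4)
    simp only [Complex.add_re, Complex.ofReal_re, Complex.mul_re, Complex.I_re, zero_mul,
      Complex.I_im, Complex.ofReal_im, mul_zero, sub_self, add_zero, le_refl]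
  have h6 : (θ ^ 2)⁻¹ * ‖z‖ ^ 2 ≤ ‖z‖ * ‖x‖ := by
    refine le_trans ?_ ((Complex.im_le_norm _).trans h4)
    simp only [Complex.add_im, Complex.ofReal_im, Complex.mul_im, Complex.I_re, zero_mul,
      Complex.I_im, Complex.ofReal_re, one_mul, zero_add, le_refl]
  have hθ2 : 0 < θ ^ 2 := by positivity
  have h7 : ‖z‖ ≤ θ ^ 2 * ‖x‖ := by
    rcases (norm_nonneg z).eq_or_lt with h0 | h0
    · rw [← h0]; positivity
    · have : ‖z‖ * ‖z‖ ≤ ‖z‖ * (θ ^ 2 * ‖x‖) := by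
        have := mul_le_mul_of_nonneg_left h6 hθ2.le
        rw [← mul_assoc, mul_inv_cancel₀ hθ2.ne', one_mul] at this
        nlinarith
      exact le_of_mul_le_mul_left this h0
  have h8 : ‖y‖ ^ 2 ≤ (θ * ‖x‖) ^ 2 := by
    have := mul_le_mul_of_nonneg_right h7 (norm_nonneg x)
    nlinarith
  exact (pow_le_pow_iff_left₀ (norm_nonneg _) (by positivity) two_ne_zero).1 h8

theorem cay_fix (Y : H →L[ℂ] H) (κ : ℝ) {P : H} (hP : star Y P = 0) :
    (cayY Y κ : H →L[ℂ] H) P = P := by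
  have h := res_eq Y κ P
  rw [hP, map_zero, map_zero, smul_zero, smul_zero, add_zero] at h
  rw [cay_apply, h]; abel

theorem cay_neg (Y : H →L[ℂ] H) {θ : ℝ} (hθ : 0 < θ) (x : H) :
    ‖(cayY Y (θ ^ 2)⁻¹ : H →L[ℂ] H) (Y x) + Y x‖ ≤ 2 * θ * ‖x‖ := by
  rw [cay_apply, sub_add_cancel]
  have := norm_res_le Y hθ x
  have h2 := norm_add_le (res Y (θ ^ 2)⁻¹ (Y x)) (res Y (θ ^ 2)⁻¹ (Y x))
  linarith

theorem cay_move (Y : H →L[ℂ] H) {θ : ℝ} (hθ : 0 < θ) (ζ : H) :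
    ‖(cayY Y (θ ^ 2)⁻¹ : H →L[ℂ] H) ζ - ζ‖ ≤
      2 * θ⁻¹ * ‖star Y ζ‖ := by
  have h := res_eq Y (θ ^ 2)⁻¹ ζ
  have h1 : ‖res Y (θ ^ 2)⁻¹ ζ - ζ‖ ≤ θ⁻¹ * ‖star Y ζ‖ := by
    have : res Y (θ ^ 2)⁻¹ ζ - ζ =
        -(Complex.I • ((θ ^ 2)⁻¹ • res Y (θ ^ 2)⁻¹ (Y (star Y ζ)))) := by
      conv_lhs => rw [← h]
      rw [h]
      rw [sub_eq_iff_eq_add, neg_add_eq_sub, eq_sub_iff_add_eq, h]
    rw [this, norm_neg, norm_smul, norm_smul, Complex.norm_I, one_mul, Real.norm_eq_abs,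
      abs_of_pos (by positivity)]
    have h2 := norm_res_le Y hθ (star Y ζ)
    calc (θ ^ 2)⁻¹ * ‖res Y (θ ^ 2)⁻¹ (Y (star Y ζ))‖ ≤ (θ ^ 2)⁻¹ * (θ * ‖star Y ζ‖) :=
          mul_le_mul_of_nonneg_left h2 (by positivity)
      _ = θ⁻¹ * ‖star Y ζ‖ := by field_simp
  rw [cay_apply]
  have h3 : res Y (θ ^ 2)⁻¹ ζ + res Y (θ ^ 2)⁻¹ ζ - ζ - ζ =
      (res Y (θ ^ 2)⁻¹ ζ - ζ) + (res Y (θ ^ 2)⁻¹ ζ - ζ) := by abel
  rw [h3]
  have := norm_add_le (res Y (θ ^ 2)⁻¹ ζ - ζ) (res Y (θ ^ 2)⁻¹ ζ - ζ)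
  linarith

theorem inv_norm (u : unitary (H →L[ℂ] H)) (x y : H) :
    ‖((u⁻¹ : unitary (H →L[ℂ] H)) : H →L[ℂ] H) x - y‖ = ‖(u : H →L[ℂ] H) y - x‖ := by
  rw [← Unitary.norm_map u, map_sub, norm_sub_rev]
  congr 2
  have : ((u * u⁻¹ : unitary (H →L[ℂ] H)) : H →L[ℂ] H) x = x := by
    rw [mul_inv_cancel]; rfl
  exact this

theorem mul_norm_le (u v : unitary (H →L[ℂ] H)) (x y z : H) :
    ‖((u * v : unitary (H →L[ℂ] H)) : H →L[ℂ] H) x - z‖ ≤
      ‖(v : H →L[ℂ] H) x - y‖ + ‖(u : H →L[ℂ] H) y - z‖ := by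
  have : ((u * v : unitary (H →L[ℂ] H)) : H →L[ℂ] H) x - z =
      (u : H →L[ℂ] H) ((v : H →L[ℂ] H) x - y) + ((u : H →L[ℂ] H) y - z) := by
    rw [map_sub]
    change (u : H →L[ℂ] H) ((v : H →L[ℂ] H) x) - z = _
    abel
  rw [this]
  refine (norm_add_le _ _).trans ?_
  rw [Unitary.norm_map]

theorem path_bound {S : Type*} (U : S → unitary (H →L[ℂ] H)) (x : List (S × Bool) → H) (e : ℝ) :
    ∀ W : List (S × Bool),
      (∀ p w, p :: w <:+ W →
        ‖((cond p.2 (U p.1) (U p.1)⁻¹ : unitary (H →L[ℂ] H)) : H →L[ℂ] H) (x w) - x (p :: w)‖ ≤ e) →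
      ‖((FreeGroup.lift U (FreeGroup.mk W) : unitary (H →L[ℂ] H)) : H →L[ℂ] H) (x []) - x W‖ ≤
        W.length * e := by
  intro W
  induction W with
  | nil => intro _; simp [FreeGroup.lift_mk]
  | cons p W ih =>
    intro h
    have h1 := ih fun q w hw => h q w (hw.trans (List.suffix_cons p W))
    have h2 := h p W (List.suffix_refl _)
    rw [FreeGroup.lift_mk] at h1 ⊢
    rw [List.map_cons, List.prod_cons]
    refine (mul_norm_le _ _ _ (x W) _).trans ?_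
    rw [List.length_cons, Nat.cast_succ]
    linarith

theorem prod_bound {α : Type*} (U : α → unitary (H →L[ℂ] H)) (e : α → ℝ) (ξ : H) :
    ∀ L : List α, (∀ p ∈ L, ‖(U p : H →L[ℂ] H) ξ - ξ‖ ≤ e p) →
      ‖(((L.map U).prod : unitary (H →L[ℂ] H)) : H →L[ℂ] H) ξ - ξ‖ ≤ (L.map e).sum := by
  intro L
  induction L with
  | nil => intro _; simp
  | cons p L ih =>
    intro h
    have h1 := ih fun q hq => h q (List.mem_cons_of_mem _ hq)
    have h2 := h p List.mem_cons_self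
    rw [List.map_cons, List.prod_cons, List.map_cons, List.sum_cons]
    refine (mul_norm_le _ _ _ ξ _).trans ?_
    linarith

/-- continuity of the Cayley transform -/
theorem continuous_cay {B : Type*} [CStarAlgebra B] : Continuous (cay : selfAdjoint B → unitary B) := by
  refine Continuous.subtype_mk ?_ _
  refine continuous_iff_continuousAt.2 fun b => ?_
  unfold cay0
  refine ContinuousAt.sub (ContinuousAt.mul continuousAt_const ?_) continuousAt_const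
  obtain ⟨u, hu⟩ := isUnit_cay b.2
  have h1 := NormedRing.inverse_continuousAt u
  rw [hu] at h1
  exact ContinuousAt.comp (f := fun b : selfAdjoint B => 1 + Complex.I • (b : B)) h1 (by fun_prop)

theorem continuous_lift {Z G α : Type*} [TopologicalSpace Z] [Group G] [TopologicalSpace G]
    [IsTopologicalGroup G] (F : Z → α → G) (hF : ∀ a, Continuous fun z => F z a)
    (y : FreeGroup α) : Continuous fun z => FreeGroup.lift (F z) y := by
  induction y using FreeGroup.induction_on with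
  | C1 => simpa using continuous_const
  | of x => simpa using hF x
  | inv_of x h => simp only [map_inv]; exact h.inv
  | mul x y hx hy => simp only [map_mul]; exact hx.mul hy

/-- norm of a vector with respect to a square root -/
theorem norm_sqrt_sq {Φ : H →L[ℂ] H} (hΦ : 0 ≤ Φ) (x y : H) :
    ⟪CFC.sqrt Φ x, CFC.sqrt Φ y⟫_ℂ = ⟪x, Φ y⟫_ℂ := by
  have h1 : IsSelfAdjoint (CFC.sqrt Φ) := (CFC.sqrt_nonneg Φ).isSelfAdjoint
  have h2 := CFC.sqrt_mul_sqrt_self Φ hΦ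
  rw [← ContinuousLinearMap.adjoint_inner_right, ← ContinuousLinearMap.star_eq_adjoint, h1.star_eq]
  conv_rhs => rw [← h2]
  rfl

theorem star_sqrt (Φ : H →L[ℂ] H) : star (CFC.sqrt Φ) = CFC.sqrt Φ :=
  (CFC.sqrt_nonneg Φ).isSelfAdjoint.star_eq

theorem sqrt_mul_sqrt {Φ : H →L[ℂ] H} (hΦ : 0 ≤ Φ) : CFC.sqrt Φ * CFC.sqrt Φ = Φ :=
  CFC.sqrt_mul_sqrt_self Φ hΦ

theorem continuous_cayY {Z : Type*} [TopologicalSpace Z] {Y : Z → H →L[ℂ] H} (hY : Continuous Y)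
    (κ : ℝ) : Continuous fun z => cayY (Y z) κ := by
  refine continuous_cay.comp (f := fun z => bb (Y z) κ) (Continuous.subtype_mk ?_ _)
  fun_prop

theorem continuous_sqrt {Z : Type*} [TopologicalSpace Z] {Φ : Z → H →L[ℂ] H} (hΦ : Continuous Φ)
    (h0 : ∀ z, 0 ≤ Φ z) : Continuous fun z => CFC.sqrt (Φ z) :=
  CFC.continuousOn_sqrt.comp_continuous hΦ h0

theorem continuous_inverse {Z : Type*} [TopologicalSpace Z] {C : Z → H →L[ℂ] H} (hC : Continuous C)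
    (h0 : ∀ z, IsUnit (C z)) : Continuous fun z => Ring.inverse (C z) := by
  refine continuous_iff_continuousAt.2 fun z => ?_
  obtain ⟨u, hu⟩ := h0 z
  have h1 := NormedRing.inverse_continuousAt u
  rw [hu] at h1
  exact ContinuousAt.comp (f := C) h1 hC.continuousAt

theorem top_conv {S ι Z : Type*} [DecidableEq ι] [NormedAddCommGroup Z]
    (h : TopStmt (H →L[ℂ] H) S ι Z) (w : ι → FreeGroup (S ⊕ ι)) (d : ℕ) (hd : 0 < d)
    (hw : ∀ i j, Multiplicative.toAdd (expS (Sum.inr j) (w i)) = if i = j then (d : ℤ) else 0)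
    (Y : S → Z → H →L[ℂ] H) (hY : ∀ s, Continuous (Y s)) (κ : ℝ)
    (f : Z × (ι → unitary (H →L[ℂ] H)) → Z) (hf : Continuous f) (R : ℝ) (hR : ∀ p, ‖f p‖ ≤ R) :
    ∃ (z : Z) (t : ι → unitary (H →L[ℂ] H)), z = f (z, t) ∧
      ∀ i, FreeGroup.lift (Sum.elim (fun s => cayY (Y s z) κ) t) (w i) = 1 := by
  refine h w d hd hw (fun s z => bb (Y s z) κ) (fun s => Continuous.subtype_mk ?_ _) f hf R hR
  have := hY s
  fun_prop

end Crest.Agent.R174.FinA
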