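import Crest.Agent.R174.FinA

/-! Row 174: estimates on the partial regular representation. -/

set_option autoImplicit false

open scoped InnerProductSpace

noncomputable section

namespace Crest.Agent.R174.FinB

open FinA

universe u

variable {Γ : Type u} [Group Γ] [DecidableEq Γ] {B : Finset Γ} {k : ℕ}

/-- the finite-dimensional Hilbert space -/
abbrev EE (B : Finset Γ) (k : ℕ) := EuclideanSpace ℂ (Fin (k + 1) × B)

theorem norm_ev {X : Type*} [DecidableEq X] [Fintype X] (p : X) : ‖ev p‖ = 1 := by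
  simp [ev]

theorem inner_ev {X : Type*} [DecidableEq X] [Fintype X] (p : X) (z : EuclideanSpace ℂ X) :
    ⟪ev p, z⟫_ℂ = z p := by
  simp [ev, EuclideanSpace.inner_single_left]

theorem norm_le_card {X : Type*} [DecidableEq X] [Fintype X] (z : EuclideanSpace ℂ X) (c : ℝ)
    (h : ∀ p, ‖⟪ev p, z⟫_ℂ‖ ≤ c) : ‖z‖ ≤ Fintype.card X * c := by
  have h1 : z = ∑ p, z p • ev p := by
    ext q
    simp [ev, Finset.sum_apply, Pi.single_apply]
  calc ‖z‖ = ‖∑ p, z p • ev p‖ := by rw [← h1]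
    _ ≤ ∑ p, ‖z p • ev p‖ := norm_sum_le _ _
    _ ≤ ∑ _p : X, c := Finset.sum_le_sum fun p _ => by
        rw [norm_smul, norm_ev, mul_one, ← inner_ev]; exact h p
    _ = Fintype.card X * c := by simp

variable (B k) in
/-- the operator `N_s` -/
def NN (s : Γ) : EE B k →L[ℂ] EE B k :=
  LinearMap.toContinuousLinearMap ((EuclideanSpace.basisFun (Fin (k + 1) × B) ℂ).toBasis.constr ℂ
    fun p => if h : s * p.2.1 ∈ B then (1 / 2 : ℂ) • (ev p - ev (p.1, ⟨s * p.2.1, h⟩)) else 0)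

theorem NN_ev (s : Γ) (p : Fin (k + 1) × B) :
    NN B k s (ev p) =
      if h : s * p.2.1 ∈ B then (1 / 2 : ℂ) • (ev p - ev (p.1, ⟨s * p.2.1, h⟩)) else 0 := by
  have : ev p = (EuclideanSpace.basisFun (Fin (k + 1) × B) ℂ).toBasis p := by
    simp [ev]
  rw [NN, LinearMap.coe_toContinuousLinearMap']
  conv_lhs => rw [this]
  rw [Module.Basis.constr_basis]

/-- invariance of a form under the partial action -/
def Inv (Ψ : EE B k →L[ℂ] EE B k) : Prop :=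
  ∀ (s : Γ) (i j : Fin (k + 1)) (a a' b b' : B), b.1 = s * a.1 → b'.1 = s * a'.1 →
      ⟪ev (i, b), Ψ (ev (j, b'))⟫_ℂ = ⟪ev (i, a), Ψ (ev (j, a'))⟫_ℂ

theorem inv_add {Φ : EE B k →L[ℂ] EE B k} (h : Inv Φ) (ε : ℝ) :
    Inv (Φ + ε • (1 : EE B k →L[ℂ] EE B k)) := by
  intro s i j a a' b b' hb hb'
  have h1 : ⟪ev (i, b), ev (j, b')⟫_ℂ = ⟪ev (i, a), ev (j, a')⟫_ℂ := by
    rw [inner_ev, inner_ev]
    have : (b = b') ↔ (a = a') := by
      rw [Subtype.ext_iff, Subtype.ext_iff, hb, hb', mul_right_inj]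
    simp [ev, this]
  simp only [ContinuousLinearMap.add_apply, ContinuousLinearMap.smul_apply,
    ContinuousLinearMap.one_apply, inner_add_right, h s i j a a' b b' hb hb']
  rw [← Complex.coe_smul, ← Complex.coe_smul, inner_smul_right, inner_smul_right, h1]

theorem star_NN {Ψ : EE B k →L[ℂ] EE B k} (h : Inv Ψ) {s : Γ} (hs : s * s = 1) (j : Fin (k + 1))
    (a b : B) (hb : b.1 = s * a.1) : star (NN B k s) (Ψ (ev (j, a) + ev (j, b))) = 0 := by
  ext p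
  rw [← inner_ev, ContinuousLinearMap.star_eq_adjoint, ContinuousLinearMap.adjoint_inner_right,
    NN_ev]
  obtain ⟨i, c⟩ := p
  split_ifs with hc
  · have h1 := h s i j c a ⟨s * c.1, hc⟩ b rfl hb
    have h2 := h s i j ⟨s * c.1, hc⟩ a c b (by simp [← mul_assoc, hs]) hb
    simp only [inner_smul_left, inner_sub_left, map_add, inner_add_right, h1, h2]
    simp only [PiLp.zero_apply]
    ring
  · simp

theorem step_abs {H : Type*} [NormedAddCommGroup H] [InnerProductSpace ℂ H] [CompleteSpace H]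
    (Y : H →L[ℂ] H) {θ : ℝ} (hθ : 0 < θ) (x x' w : H) (hP : star Y (x + x') = 0)
    (hY : Y w = (1 / 2 : ℂ) • (x - x')) (hw : ‖w‖ = 1) :
    ‖(cayY Y (θ ^ 2)⁻¹ : H →L[ℂ] H) x - x'‖ ≤ 2 * θ := by
  have hP' : star Y ((1 / 2 : ℂ) • (x + x')) = 0 := by rw [map_smul, hP, smul_zero]
  have h1 := cay_fix Y (θ ^ 2)⁻¹ hP'
  have h2 := cay_neg Y hθ w
  rw [hY, hw, mul_one] at h2
  have key : ∀ T : H →L[ℂ] H, T ((1 / 2 : ℂ) • (x + x')) = (1 / 2 : ℂ) • (x + x') →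
      T x - x' = T ((1 / 2 : ℂ) • (x - x')) + (1 / 2 : ℂ) • (x - x') := by
    intro T hT
    have h4 : (1 / 2 : ℂ) • (x + x') + (1 / 2 : ℂ) • (x - x') = x := by module
    have h5 : T x = (1 / 2 : ℂ) • (x + x') + T ((1 / 2 : ℂ) • (x - x')) := by
      rw [← hT, ← map_add, h4]
    rw [h5]
    generalize T ((1 / 2 : ℂ) • (x - x')) = z
    module
  rw [key _ h1]
  exact h2

theorem step {Ψ C : EE B k →L[ℂ] EE B k} (hCs : star C = C) (hCC : C * C = Ψ) (h : Inv Ψ)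
    {s : Γ} (hs : s * s = 1)
    {θ : ℝ} (hθ : 0 < θ) (j : Fin (k + 1)) (a b : B) (hb : b.1 = s * a.1) :
    ‖(cayY (C * NN B k s) (θ ^ 2)⁻¹ : EE B k →L[ℂ] EE B k) (C (ev (j, a))) - C (ev (j, b))‖ ≤ 2 * θ := by
  refine step_abs _ hθ _ _ (ev (j, a)) ?_ ?_ (norm_ev _)
  · rw [star_mul, hCs, ← map_add]
    have : (star (NN B k s) * C) (C (ev (j, a) + ev (j, b))) =
        star (NN B k s) ((C * C) (ev (j, a) + ev (j, b))) := rfl
    rw [this, hCC, star_NN h hs j a b hb]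
  · have hsb : s * a.1 ∈ B := hb ▸ b.2
    have hbb : (⟨s * a.1, hsb⟩ : B) = b := Subtype.ext hb.symm
    change C (NN B k s (ev (j, a))) = _
    rw [NN_ev, dif_pos hsb, map_smul, map_sub]
    simp only [hbb]

theorem norm_sq_sqrt {H : Type*} [NormedAddCommGroup H] [InnerProductSpace ℂ H] [CompleteSpace H]
    {Φ : H →L[ℂ] H} (hΦ : 0 ≤ Φ) (x : H) : ‖CFC.sqrt Φ x‖ ^ 2 = (⟪x, Φ x⟫_ℂ).re := by
  rw [← norm_sqrt_sq hΦ, inner_self_eq_norm_sq_to_K]
  norm_cast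

theorem add_nonneg' {H : Type*} [NormedAddCommGroup H] [InnerProductSpace ℂ H] [CompleteSpace H]
    {Φ : H →L[ℂ] H} (hΦ : 0 ≤ Φ) {ε : ℝ} (hε : 0 ≤ ε) : 0 ≤ Φ + ε • (1 : H →L[ℂ] H) :=
  add_nonneg hΦ (smul_nonneg hε zero_le_one)

theorem norm_sq_sqrt_add {H : Type*} [NormedAddCommGroup H] [InnerProductSpace ℂ H]
    [CompleteSpace H] {Φ : H →L[ℂ] H} (hΦ : 0 ≤ Φ) {ε : ℝ} (hε : 0 ≤ ε) (x : H) :
    ‖CFC.sqrt (Φ + ε • (1 : H →L[ℂ] H)) x‖ ^ 2 = ‖CFC.sqrt Φ x‖ ^ 2 + ε * ‖x‖ ^ 2 := by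
  rw [norm_sq_sqrt (add_nonneg' hΦ hε), norm_sq_sqrt hΦ]
  simp only [ContinuousLinearMap.add_apply, ContinuousLinearMap.smul_apply,
    ContinuousLinearMap.one_apply, inner_add_right, Complex.add_re]
  rw [← Complex.coe_smul, inner_smul_right, inner_self_eq_norm_sq_to_K, Complex.re_ofReal_mul]
  norm_cast

theorem diag_le {o g : B} (ho : o.1 = 1) {Φ : EE B k →L[ℂ] EE B k} (hΦ : Φ ∈ PP B k o g)
    (p : Fin (k + 1) × B) : ‖CFC.sqrt Φ (ev p)‖ ≤ 1 := by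
  obtain ⟨h0, hinv, hsum, -⟩ := hΦ
  obtain ⟨j, a⟩ := p
  have h1 := hinv a.1 j j o o a a (by simp [ho]) (by simp [ho])
  have h2 : ‖CFC.sqrt Φ (ev (j, a))‖ ^ 2 ≤ 1 := by
    rw [norm_sq_sqrt h0, h1, ← hsum]
    refine Finset.single_le_sum (f := fun j : Fin (k + 1) => (⟪ev (j, o), Φ (ev (j, o))⟫_ℂ).re)
      (fun i _ => ?_) (Finset.mem_univ j)
    rw [← norm_sq_sqrt h0]; positivity
  exact (sq_le_one_iff₀ (norm_nonneg _)).1 h2

theorem norm_map_NN_le {T : EE B k →L[ℂ] EE B k} (hT : ∀ p, ‖T (ev p)‖ ≤ 1) (s : Γ)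
    (p : Fin (k + 1) × B) : ‖T (NN B k s (ev p))‖ ≤ 1 := by
  rw [NN_ev]
  split_ifs with h
  · rw [map_smul, map_sub, norm_smul]
    have h1 := norm_sub_le (T (ev p)) (T (ev (p.1, ⟨s * p.2.1, h⟩)))
    have h2 := hT p
    have h3 := hT (p.1, ⟨s * p.2.1, h⟩)
    have : ‖(1 / 2 : ℂ)‖ = 1 / 2 := by simp
    rw [this]
    linarith
  · simp

theorem zeta_le {o g : B} (ho : o.1 = 1) {Φ : EE B k →L[ℂ] EE B k} (hΦ : Φ ∈ PP B k o g)
    {ε : ℝ} (hε : 0 ≤ ε) (s : Γ) (v : EE B k) :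
    ‖star (CFC.sqrt (Φ + ε • (1 : EE B k →L[ℂ] EE B k)) * NN B k s)
        (CFC.sqrt (Φ + ε • (1 : EE B k →L[ℂ] EE B k)) v)‖ ≤
      Fintype.card (Fin (k + 1) × B) * (‖CFC.sqrt Φ v‖ + ε * ‖v‖) := by
  refine norm_le_card _ _ fun p => ?_
  rw [ContinuousLinearMap.star_eq_adjoint, ContinuousLinearMap.adjoint_inner_right]
  have : (CFC.sqrt (Φ + ε • (1 : EE B k →L[ℂ] EE B k)) * NN B k s) (ev p) =
      CFC.sqrt (Φ + ε • (1 : EE B k →L[ℂ] EE B k)) (NN B k s (ev p)) := rfl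
  rw [this, norm_sqrt_sq (add_nonneg' hΦ.1 hε)]
  simp only [ContinuousLinearMap.add_apply, ContinuousLinearMap.smul_apply,
    ContinuousLinearMap.one_apply, inner_add_right]
  rw [← norm_sqrt_sq hΦ.1, ← Complex.coe_smul, inner_smul_right]
  refine (norm_add_le _ _).trans (add_le_add ?_ ?_)
  · refine (norm_inner_le_norm _ _).trans ?_
    have := norm_map_NN_le (diag_le ho hΦ) s p
    exact mul_le_of_le_one_left (norm_nonneg _) this
  · rw [norm_mul, Complex.norm_real, Real.norm_eq_abs, abs_of_nonneg hε]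
    refine mul_le_mul_of_nonneg_left ((norm_inner_le_norm _ _).trans ?_) hε
    have := norm_map_NN_le (T := (1 : EE B k →L[ℂ] EE B k)) (fun q => (norm_ev q).le) s p
    exact mul_le_of_le_one_left (norm_nonneg _) this

theorem isUnit_sqrt {H : Type*} [NormedAddCommGroup H] [InnerProductSpace ℂ H]
    [FiniteDimensional ℂ H] [CompleteSpace H] {Φ : H →L[ℂ] H} (hΦ : 0 ≤ Φ) {ε : ℝ} (hε : 0 < ε) :
    IsUnit (CFC.sqrt (Φ + ε • (1 : H →L[ℂ] H))) := by
  rw [ContinuousLinearMap.isUnit_iff_bijective]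
  have hinj : Function.Injective (CFC.sqrt (Φ + ε • (1 : H →L[ℂ] H)) : H →L[ℂ] H) := by
    rw [injective_iff_map_eq_zero]
    intro x hx
    have h := norm_sq_sqrt_add hΦ hε.le x
    rw [hx, norm_zero] at h
    have h1 : ε * ‖x‖ ^ 2 ≤ 0 := by nlinarith [sq_nonneg ‖CFC.sqrt Φ x‖]
    have h2 : ‖x‖ ^ 2 ≤ 0 := by
      by_contra h3
      push Not at h3
      have := mul_pos hε h3
      linarith
    have h3 : ‖x‖ = 0 := by nlinarith [norm_nonneg x]
    exact norm_eq_zero.1 h3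
  exact ⟨hinj, (LinearMap.injective_iff_surjective (f := (CFC.sqrt (Φ + ε • (1 : H →L[ℂ] H)) :
    H →L[ℂ] H).toLinearMap)).1 hinj⟩

theorem convex_PP (o g : B) : Convex ℝ (PP B k o g) := by
  intro Φ hΦ Ψ hΨ a b ha hb hab
  refine ⟨add_nonneg (smul_nonneg ha hΦ.1) (smul_nonneg hb hΨ.1), ?_, ?_, ?_⟩
  · intro s i j x x' y y' hy hy'
    simp only [ContinuousLinearMap.add_apply, ContinuousLinearMap.smul_apply, inner_add_right]
    simp only [← Complex.coe_smul, inner_smul_right, hΦ.2.1 s i j x x' y y' hy hy',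
      hΨ.2.1 s i j x x' y y' hy hy']
  · simp only [ContinuousLinearMap.add_apply, ContinuousLinearMap.smul_apply, inner_add_right]
    simp only [← Complex.coe_smul, inner_smul_right, Complex.add_re, Complex.re_ofReal_mul,
      Finset.sum_add_distrib, ← Finset.mul_sum, hΦ.2.2.1, hΨ.2.2.1]
    linarith
  · simp only [ContinuousLinearMap.add_apply, ContinuousLinearMap.smul_apply, hΦ.2.2.2,
      hΨ.2.2.2, smul_zero, add_zero]

theorem exists_Phi (hN : LemNStmt Γ) (o g : B) (ho : o.1 = 1) (hg : g.1 * g.1 = 1)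
    (hg1 : g.1 ≠ 1) (e : Fin k → EE B k) {δ : ℝ} (hδ : 0 < δ) :
    ∃ Φ : (Fin k → EE B k) → (EE B k →L[ℂ] EE B k), Continuous Φ ∧
      ∀ A, Φ A ∈ PP B k o g ∧ ∀ l, (⟪A l - e l, Φ A (A l - e l)⟫_ℂ).re < δ := by
  refine Exists.elim (exists_continuous_forall_mem_convex_of_local_const
    (t := fun A : Fin k → EE B k => {Φ : EE B k →L[ℂ] EE B k | Φ ∈ PP B k o g ∧
      ∀ l, (⟪A l - e l, Φ (A l - e l)⟫_ℂ).re < δ}) (fun A => ?_) (fun A => ?_))
    fun Φ hΦ => ⟨Φ, Φ.continuous, hΦ⟩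
  · intro Φ hΦ Ψ hΨ a b ha hb hab
    refine ⟨convex_PP o g hΦ.1 hΨ.1 ha hb hab, fun l => ?_⟩
    simp only [ContinuousLinearMap.add_apply, ContinuousLinearMap.smul_apply, inner_add_right]
    simp only [← Complex.coe_smul, inner_smul_right, Complex.add_re, Complex.re_ofReal_mul]
    exact convex_Iio δ (hΦ.2 l) (hΨ.2 l) ha hb hab
  · obtain ⟨Φ, hΦ, h⟩ := hN B k o g ho hg hg1 (fun l => A l - e l) δ hδ
    refine ⟨Φ, ?_⟩
    have : ∀ᶠ A' : Fin k → EE B k in nhds A, ∀ l, (⟪A' l - e l, Φ (A' l - e l)⟫_ℂ).re < δ := by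
      rw [Filter.eventually_all]
      intro l
      have hc : Continuous fun A' : Fin k → EE B k => (⟪A' l - e l, Φ (A' l - e l)⟫_ℂ).re := by
        fun_prop
      exact hc.continuousAt.eventually_lt continuousAt_const (h l)
    filter_upwards [this] with A' hA'
    exact ⟨hΦ, hA'⟩

end Crest.Agent.R174.FinB
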