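import Crest.Agent.R174.FinB

/-! Row 174: the final contradiction. -/

set_option autoImplicit false

open MeasureTheory Monoid
open scoped InnerProductSpace

noncomputable section

universe u

namespace Crest.Agent.R174

namespace Final

open FinA FinB

variable {Γ : Type u} [Group Γ] [DecidableEq Γ] {B : Finset Γ} {k : ℕ}

/-- value of a word of involutions -/
def val (w : List (Invol Γ × Bool)) : Γ := FreeGroup.lift Subtype.val (FreeGroup.mk w)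

omit [DecidableEq Γ] in
theorem val_nil : val ([] : List (Invol Γ × Bool)) = 1 := by simp [val, FreeGroup.lift_mk]

omit [DecidableEq Γ] in
theorem val_cons (p : Invol Γ × Bool) (w : List (Invol Γ × Bool)) :
    val (p :: w) = p.1.1 * val w := by
  obtain ⟨s, b⟩ := p
  have : s.1⁻¹ = s.1 := inv_eq_of_mul_eq_one_right s.2
  cases b <;> simp [val, FreeGroup.lift_mk, this]

/-- extended basis vectors -/
def evx (B : Finset Γ) (k : ℕ) (j : Fin (k + 1)) (a : Γ) : EE B k :=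
  if h : a ∈ B then ev (j, ⟨a, h⟩) else 0

theorem sqrt_le_of_lt {H : Type*} [NormedAddCommGroup H] [InnerProductSpace ℂ H]
    [CompleteSpace H] {Φ : H →L[ℂ] H} (hΦ : 0 ≤ Φ) {θ : ℝ} (x : H)
    (h : (⟪x, Φ x⟫_ℂ).re < θ ^ 4) : ‖CFC.sqrt Φ x‖ ≤ θ ^ 2 := by
  rw [← norm_sq_sqrt hΦ] at h
  have : ‖CFC.sqrt Φ x‖ ^ 2 ≤ (θ ^ 2) ^ 2 := by nlinarith
  exact (pow_le_pow_iff_left₀ (norm_nonneg _) (by positivity) two_ne_zero).1 this

theorem size_le {H : Type*} [NormedAddCommGroup H] [InnerProductSpace ℂ H]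
    [CompleteSpace H] {Φ C : H →L[ℂ] H} (hΦ : 0 ≤ Φ) {θ : ℝ} (hθ : 0 < θ) (hθ1 : θ ≤ 1)
    (hC : C = CFC.sqrt (Φ + θ ^ 4 • (1 : H →L[ℂ] H))) (x e e' : H) (he : ‖e‖ = 1) (he' : ‖e'‖ = 1)
    (h3 : ‖CFC.sqrt Φ e‖ ≤ 1) (hn : ‖C x‖ = ‖C e‖) : θ ^ 4 * ‖x - e'‖ ≤ 3 * θ ^ 2 := by
  have hε : 0 ≤ θ ^ 4 := by positivity
  have hx1 : θ ^ 4 * ‖x‖ ≤ 2 * θ ^ 2 := by
    have h1 := norm_sq_sqrt_add hΦ hε x
    have h2 := norm_sq_sqrt_add hΦ hε e
    rw [← hC] at h1 h2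
    rw [hn, h2, he] at h1
    have h4 : ‖CFC.sqrt Φ e‖ ^ 2 ≤ 1 := (sq_le_one_iff₀ (norm_nonneg _)).2 h3
    have h5 : θ ^ 4 ≤ 1 := pow_le_one₀ hθ.le hθ1
    have h6 : θ ^ 4 * ‖x‖ ^ 2 ≤ 4 := by linarith [sq_nonneg ‖CFC.sqrt Φ x‖]
    have h7 : (θ ^ 4 * ‖x‖) ^ 2 ≤ (2 * θ ^ 2) ^ 2 := by
      have := mul_le_mul_of_nonneg_left h6 hε
      linarith
    exact (pow_le_pow_iff_left₀ (by positivity) (by positivity) two_ne_zero).1 h7
  have h1 := norm_sub_le x e'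
  rw [he'] at h1
  have h2 := mul_le_mul_of_nonneg_left h1 hε
  have h3 : θ ^ 4 ≤ θ ^ 2 := pow_le_pow_of_le_one hθ.le hθ1 (by norm_num)
  linarith

theorem zeta_move {o g : B} (ho : o.1 = 1) {Φ C : EE B k →L[ℂ] EE B k} (hΦ : Φ ∈ PP B k o g)
    {θ : ℝ} (hθ : 0 < θ) (hθ1 : θ ≤ 1)
    (hC : C = CFC.sqrt (Φ + θ ^ 4 • (1 : EE B k →L[ℂ] EE B k)))
    (j : Fin (k + 1)) (x : EE B k)
    (hx : (⟪x - ev (j, o), Φ (x - ev (j, o))⟫_ℂ).re < θ ^ 4)
    (hn : ‖C x‖ = ‖C (ev (0, o))‖) (s : Γ) :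
    ‖(cayY (C * NN B k s) (θ ^ 2)⁻¹ : EE B k →L[ℂ] EE B k) (C (x - ev (j, o))) -
      C (x - ev (j, o))‖ ≤ 8 * Fintype.card (Fin (k + 1) × B) * θ := by
  have hε : 0 ≤ θ ^ 4 := by positivity
  have hx2 := size_le hΦ.1 hθ hθ1 hC x (ev (0, o)) (ev (j, o)) (norm_ev _) (norm_ev _)
    (diag_le ho hΦ (0, o)) hn
  refine (cay_move _ hθ _).trans ?_
  have h1 := zeta_le ho hΦ hε s (x - ev (j, o))
  rw [← hC] at h1
  have h2 := sqrt_le_of_lt hΦ.1 _ hx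
  have h3 : (Fintype.card (Fin (k + 1) × B) : ℝ) *
      (‖CFC.sqrt Φ (x - ev (j, o))‖ + θ ^ 4 * ‖x - ev (j, o)‖) ≤
      Fintype.card (Fin (k + 1) × B) * (4 * θ ^ 2) :=
    mul_le_mul_of_nonneg_left ((add_le_add h2 hx2).trans (le_of_eq (by ring))) (Nat.cast_nonneg _)
  calc _ ≤ 2 * θ⁻¹ * (Fintype.card (Fin (k + 1) × B) * (4 * θ ^ 2)) :=
        mul_le_mul_of_nonneg_left (h1.trans h3) (by positivity)
    _ = _ := by field_simp; ring

theorem partA {o g : B} (ho : o.1 = 1) {Φ C : EE B k →L[ℂ] EE B k} (hΦ : Φ ∈ PP B k o g)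
    {θ : ℝ} (hθ : 0 < θ) (hθ1 : θ ≤ 1)
    (hC : C = CFC.sqrt (Φ + θ ^ 4 • (1 : EE B k →L[ℂ] EE B k)))
    (U : Invol Γ → unitary (EE B k →L[ℂ] EE B k))
    (hU : ∀ s, U s = cayY (C * NN B k s.1) (θ ^ 2)⁻¹)
    (j : Fin (k + 1)) (x : EE B k)
    (hx : (⟪x - ev (j, o), Φ (x - ev (j, o))⟫_ℂ).re < θ ^ 4)
    (hn : ‖C x‖ = ‖C (ev (0, o))‖) (W : List (Invol Γ × Bool))
    (hW : ∀ w, w <:+ W → val w ∈ B) (hW1 : val W = 1) :
    ‖((FreeGroup.lift U (FreeGroup.mk W) : unitary (EE B k →L[ℂ] EE B k)) :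
        EE B k →L[ℂ] EE B k) (C x) - C x‖ ≤
      W.length * ((2 + 8 * Fintype.card (Fin (k + 1) × B)) * θ) := by
  have hε : 0 ≤ θ ^ 4 := by positivity
  have hΨ := add_nonneg' hΦ.1 hε
  have hCs : star C = C := by rw [hC]; exact star_sqrt _
  have hCC : C * C = Φ + θ ^ 4 • (1 : EE B k →L[ℂ] EE B k) := by
    rw [hC]; exact sqrt_mul_sqrt hΨ
  have hinv : Inv (Φ + θ ^ 4 • (1 : EE B k →L[ℂ] EE B k)) := inv_add hΦ.2.1 _
  have hstep : ∀ (s : Invol Γ) (a b : B), b.1 = s.1 * a.1 →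
      ‖(U s : EE B k →L[ℂ] EE B k) (C (ev (j, a)) + C (x - ev (j, o))) -
        (C (ev (j, b)) + C (x - ev (j, o)))‖ ≤ (2 + 8 * Fintype.card (Fin (k + 1) × B)) * θ := by
    intro s a b hb
    have h1 := step hCs hCC hinv s.2 hθ j a b hb
    have h2 := zeta_move ho hΦ hθ hθ1 hC j x hx hn s.1
    rw [← hU] at h1 h2
    rw [map_add, add_sub_add_comm]
    exact (norm_add_le _ _).trans ((add_le_add h1 h2).trans (le_of_eq (by ring)))
  have key := path_bound U (fun w => C (evx B k j (val w)) + C (x - ev (j, o)))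
    ((2 + 8 * Fintype.card (Fin (k + 1) × B)) * θ) W (fun p w hw => by
      have h1 : val (p :: w) ∈ B := hW _ hw
      have h2 : val w ∈ B := hW _ ((List.suffix_cons p w).trans hw)
      simp only [evx, dif_pos h1, dif_pos h2]
      obtain ⟨s, b⟩ := p
      cases b
      · rw [cond_false, inv_norm]
        refine hstep s _ _ ?_
        simp [val_cons, ← mul_assoc, s.2]
      · rw [cond_true]
        exact hstep s _ _ (val_cons _ _))
  have h1 : evx B k j 1 = ev (j, o) := by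
    rw [evx, dif_pos (ho ▸ o.2)]
    congr 2
    exact Subtype.ext ho.symm
  have h2 : C (ev (j, o)) + C (x - ev (j, o)) = C x := by rw [← map_add, add_sub_cancel]
  beta_reduce at key
  rw [val_nil, hW1, h1, h2] at key
  exact key

theorem partB {o g : B} (ho : o.1 = 1) (hg : g.1 * g.1 = 1) {Φ C : EE B k →L[ℂ] EE B k}
    (hΦ : Φ ∈ PP B k o g) {θ : ℝ} (hθ : 0 < θ) (hθ1 : θ ≤ 1)
    (hC : C = CFC.sqrt (Φ + θ ^ 4 • (1 : EE B k →L[ℂ] EE B k)))
    (A : Fin k → EE B k)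
    (hA : ∀ l, (⟪A l - ev (l.succ, o), Φ (A l - ev (l.succ, o))⟫_ℂ).re < θ ^ 4)
    (hn : ∀ l, ‖C (A l)‖ = ‖C (ev (0, o))‖) {c : ℝ}
    (hc : ‖(cayY (C * NN B k g.1) (θ ^ 2)⁻¹ : EE B k →L[ℂ] EE B k) (C (ev (0, o))) - C (ev (0, o))‖ ≤ c) :
    1 ≤ (k + 1) * (c / 2 + 3 * θ) ^ 2 := by
  have hε : 0 ≤ θ ^ 4 := by positivity
  have hΨ := add_nonneg' hΦ.1 hε
  have hCs : star C = C := by rw [hC]; exact star_sqrt _
  have hCC : C * C = Φ + θ ^ 4 • (1 : EE B k →L[ℂ] EE B k) := by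
    rw [hC]; exact sqrt_mul_sqrt hΨ
  have hinv : Inv (Φ + θ ^ 4 • (1 : EE B k →L[ℂ] EE B k)) := inv_add hΦ.2.1 _
  have hθ2 : θ ^ 2 ≤ θ := by nlinarith
  have h1 := step hCs hCC hinv hg hθ 0 o g (by simp [ho])
  generalize (cayY (C * NN B k g.1) (θ ^ 2)⁻¹ : EE B k →L[ℂ] EE B k) (C (ev (0, o))) = z at h1 hc
  have hle : ∀ x, ‖CFC.sqrt Φ x‖ ≤ ‖C x‖ := by
    intro x
    have h2 := norm_sq_sqrt_add hΦ.1 hε x
    rw [← hC] at h2
    have : ‖CFC.sqrt Φ x‖ ^ 2 ≤ ‖C x‖ ^ 2 := by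
      rw [h2]; exact le_add_of_nonneg_right (by positivity)
    exact (pow_le_pow_iff_left₀ (norm_nonneg _) (norm_nonneg _) two_ne_zero).1 this
  have h2 : ‖C (ev (0, g)) + C (ev (0, o))‖ ≤ 2 * θ ^ 2 := by
    rw [← map_add]
    have h3 := norm_sq_sqrt_add hΦ.1 hε (ev (0, g) + ev (0, o))
    rw [← hC, norm_sq_sqrt hΦ.1, hΦ.2.2.2, inner_zero_right, Complex.zero_re, zero_add] at h3
    have h4 : ‖(ev (0, g) + ev (0, o) : EE B k)‖ ≤ 2 := by
      refine (norm_add_le _ _).trans ?_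
      rw [norm_ev, norm_ev]; norm_num
    have h5 : ‖(ev (0, g) + ev (0, o) : EE B k)‖ ^ 2 ≤ 2 ^ 2 :=
      pow_le_pow_left₀ (norm_nonneg _) h4 2
    have h6 : ‖C (ev (0, g) + ev (0, o))‖ ^ 2 ≤ (2 * θ ^ 2) ^ 2 := by
      rw [h3]
      have := mul_le_mul_of_nonneg_left h5 hε
      nlinarith
    exact (pow_le_pow_iff_left₀ (norm_nonneg _) (by positivity) two_ne_zero).1 h6
  have h3 : ‖C (ev (0, o))‖ ≤ c / 2 + 2 * θ := by
    have h4 : (2 : ℝ) • C (ev (0, o)) = (C (ev (0, g)) + C (ev (0, o))) + (z - C (ev (0, g))) -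
        (z - C (ev (0, o))) := by
      rw [two_smul]; abel
    have h5 : ‖(2 : ℝ) • C (ev (0, o))‖ ≤ 2 * θ ^ 2 + 2 * θ + c := by
      rw [h4]
      refine (norm_sub_le _ _).trans (add_le_add ((norm_add_le _ _).trans (add_le_add h2 h1)) hc)
    rw [norm_smul, Real.norm_two] at h5
    linarith
  have h4 : ∀ j : Fin (k + 1), ‖CFC.sqrt Φ (ev (j, o))‖ ≤ c / 2 + 3 * θ := by
    intro j
    induction j using Fin.cases with
    | zero => have := hle (ev (0, o)); linarith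
    | succ l =>
      have h5 := sqrt_le_of_lt hΦ.1 _ (hA l)
      have h6 := hle (A l)
      rw [hn l] at h6
      have h7 : CFC.sqrt Φ (ev (l.succ, o)) =
          CFC.sqrt Φ (A l) - CFC.sqrt Φ (A l - ev (l.succ, o)) := by
        rw [map_sub, sub_sub_cancel]
      rw [h7]
      refine (norm_sub_le _ _).trans ?_
      linarith
  calc (1 : ℝ) = _ := hΦ.2.2.1.symm
    _ ≤ ∑ _j : Fin (k + 1), (c / 2 + 3 * θ) ^ 2 := Finset.sum_le_sum fun j _ => by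
        rw [← norm_sq_sqrt hΦ.1]
        exact pow_le_pow_left₀ (norm_nonneg _) (h4 j) 2
    _ = _ := by simp

theorem bound_f {H : Type*} [NormedAddCommGroup H] [InnerProductSpace ℂ H]
    [FiniteDimensional ℂ H] [CompleteSpace H] {Φ C : H →L[ℂ] H} (hΦ : 0 ≤ Φ) {ε : ℝ} (hε : 0 < ε)
    (hC : C = CFC.sqrt (Φ + ε • (1 : H →L[ℂ] H))) (e : H) (he : ‖e‖ = 1)
    (h3 : ‖CFC.sqrt Φ e‖ ≤ 1) (u : unitary (H →L[ℂ] H)) :
    C (Ring.inverse C ((u : H →L[ℂ] H) (C e))) = (u : H →L[ℂ] H) (C e) ∧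
      ‖Ring.inverse C ((u : H →L[ℂ] H) (C e))‖ ≤ 2 + ε⁻¹ := by
  have hu : IsUnit C := hC ▸ isUnit_sqrt hΦ hε
  have h0 : C (Ring.inverse C ((u : H →L[ℂ] H) (C e))) = (u : H →L[ℂ] H) (C e) := by
    change (C * Ring.inverse C) _ = _
    rw [Ring.mul_inverse_cancel _ hu]
    rfl
  refine ⟨h0, ?_⟩
  set x := Ring.inverse C ((u : H →L[ℂ] H) (C e))
  have h1 := norm_sq_sqrt_add hΦ hε.le x
  have h2 := norm_sq_sqrt_add hΦ hε.le e
  rw [← hC] at h1 h2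
  rw [h0, Unitary.norm_map, h2, he] at h1
  have h4 : ‖CFC.sqrt Φ e‖ ^ 2 ≤ 1 := (sq_le_one_iff₀ (norm_nonneg _)).2 h3
  have h6 : ε * ‖x‖ ^ 2 ≤ 1 + ε := by linarith [sq_nonneg ‖CFC.sqrt Φ x‖]
  have h7 : ‖x‖ ^ 2 ≤ ε⁻¹ + 1 := by
    have := mul_le_mul_of_nonneg_left h6 (inv_pos.2 hε).le
    rwa [← mul_assoc, mul_add, inv_mul_cancel₀ hε.ne', one_mul, mul_one] at this
  nlinarith [sq_nonneg (‖x‖ - 1), inv_pos.2 hε]

theorem conj_norm {H : Type*} [NormedAddCommGroup H] [InnerProductSpace ℂ H] [CompleteSpace H]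
    (y r : unitary (H →L[ℂ] H)) (ξ : H) :
    ‖((y⁻¹ * r * y : unitary (H →L[ℂ] H)) : H →L[ℂ] H) ξ - ξ‖ =
      ‖(r : H →L[ℂ] H) ((y : H →L[ℂ] H) ξ) - (y : H →L[ℂ] H) ξ‖ := by
  rw [mul_assoc]
  change ‖((y⁻¹ : unitary (H →L[ℂ] H)) : H →L[ℂ] H) ((r : H →L[ℂ] H) ((y : H →L[ℂ] H) ξ)) - ξ‖ = _
  rw [inv_norm, norm_sub_rev]

theorem lift_map_inl {S ι G : Type*} [Group G] (U : S → G) (t : ι → G) (r : FreeGroup S) :
    FreeGroup.lift (Sum.elim U t) (FreeGroup.map Sum.inl r) = FreeGroup.lift U r := by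
  have : (FreeGroup.lift (Sum.elim U t)).comp (FreeGroup.map Sum.inl) = FreeGroup.lift U := by
    ext s; simp
  exact DFunLike.congr_fun this r

theorem exists_B (g : Γ) {α : Type*} (L : List (α × FreeGroup (Invol Γ))) :
    ∃ B : Finset Γ, 1 ∈ B ∧ g ∈ B ∧ ∀ p ∈ L, ∀ w, w <:+ p.2.toWord → val w ∈ B := by
  refine ⟨insert 1 (insert g (L.flatMap fun p => p.2.toWord.tails.map val).toFinset),
    Finset.mem_insert_self _ _, Finset.mem_insert_of_mem (Finset.mem_insert_self _ _), ?_⟩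
  intro p hp w hw
  refine Finset.mem_insert_of_mem (Finset.mem_insert_of_mem ?_)
  rw [List.mem_toFinset, List.mem_flatMap]
  exact ⟨p, hp, List.mem_map_of_mem ((List.mem_tails _ _).2 hw)⟩

end Final

open FinA FinB Final in
theorem final_contra {Γ : Type u} [Group Γ] [DecidableEq Γ] {m : ℕ} (hN : LemNStmt Γ)
    (hTop : ∀ (B : Finset Γ) (k : ℕ), B.Nonempty →
      TopStmt (EuclideanSpace ℂ (Fin (k + 1) × B) →L[ℂ] EuclideanSpace ℂ (Fin (k + 1) × B))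
        (Invol Γ) (Fin m) (Fin k → EuclideanSpace ℂ (Fin (k + 1) × B)))
    (g : Invol Γ) (d : ℕ)
    (v : Fin m → FreeGroup (Invol Γ ⊕ Fin m))
    (L : List (FreeGroup (Invol Γ ⊕ Fin m) × FreeGroup (Invol Γ)))
    (hg : g.1 ≠ 1) (hd : 0 < d)
    (hv : ∀ i j, Multiplicative.toAdd (expS (Sum.inr j) (v i)) = if i = j then (d : ℤ) else 0)
    (hL : ∀ p ∈ L, FreeGroup.lift Subtype.val p.2 = 1)
    (hmem : FreeGroup.of (Sum.inl g) *
      ((L.map fun p => p.1⁻¹ * FreeGroup.map Sum.inl p.2 * p.1).prod)⁻¹ ∈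
        Subgroup.normalClosure (Set.range v)) : False := by
  obtain ⟨B, hB1, hBg, hB⟩ := exists_B g.1 L
  set k := L.length with hk
  set o : B := ⟨1, hB1⟩ with ho_def
  set g' : B := ⟨g.1, hBg⟩ with hg'_def
  have ho : o.1 = 1 := rfl
  set D : ℝ := (Fintype.card (Fin (k + 1) × B) : ℝ) with hD
  have hD0 : 0 ≤ D := Nat.cast_nonneg _
  set n : ℝ := (L.map fun p => (p.2.toWord.length : ℝ)).sum with hn_def
  have hn0 : 0 ≤ n := List.sum_nonneg fun x hx => by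
    obtain ⟨p, -, rfl⟩ := List.mem_map.1 hx
    exact Nat.cast_nonneg _
  have main : ∀ θ : ℝ, 0 < θ → θ ≤ 1 → 1 ≤ (k + 1) * (n * ((2 + 8 * D) * θ) / 2 + 3 * θ) ^ 2 := by
    intro θ hθ hθ1
    have hε : 0 < θ ^ 4 := by positivity
    obtain ⟨Φ, hΦc, hΦ⟩ := exists_Phi (k := k) hN o g' ho g.2 hg (fun l => ev (l.succ, o)) hε
    obtain ⟨C, hC⟩ : ∃ C : (Fin k → EE B k) → EE B k →L[ℂ] EE B k,
        ∀ A, C A = CFC.sqrt (Φ A + θ ^ 4 • (1 : EE B k →L[ℂ] EE B k)) := ⟨_, fun _ => rfl⟩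
    have hCc : Continuous C := by
      rw [funext hC]
      exact continuous_sqrt (hΦc.add continuous_const) fun A => add_nonneg' (hΦ A).1.1 hε.le
    have hCu : ∀ A, IsUnit (C A) := fun A => by rw [hC]; exact isUnit_sqrt (hΦ A).1.1 hε
    have hρc : ∀ y : FreeGroup (Invol Γ ⊕ Fin m),
        Continuous fun p : (Fin k → EE B k) × (Fin m → unitary (EE B k →L[ℂ] EE B k)) =>
          FreeGroup.lift (Sum.elim (fun s : Invol Γ => cayY (C p.1 * NN B k s.1) (θ ^ 2)⁻¹) p.2)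
            y := by
      refine continuous_lift _ fun a => ?_
      rcases a with s | i
      · exact continuous_cayY ((hCc.comp continuous_fst).mul continuous_const) _
      · exact (continuous_apply i).comp continuous_snd
    obtain ⟨A, t, hA, ht⟩ := top_conv (hTop B k ⟨1, hB1⟩) v d hd hv
      (fun s A => C A * NN B k s.1) (fun s => hCc.mul continuous_const) (θ ^ 2)⁻¹
      (fun p l => Ring.inverse (C p.1)
        (((FreeGroup.lift (Sum.elim (fun s : Invol Γ => cayY (C p.1 * NN B k s.1) (θ ^ 2)⁻¹) p.2)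
          (L.get l).1 : unitary (EE B k →L[ℂ] EE B k)) : EE B k →L[ℂ] EE B k) (C p.1 (ev (0, o)))))
      (continuous_pi fun l =>
        ((continuous_inverse hCc hCu).comp continuous_fst).clm_apply
          ((continuous_subtype_val.comp (hρc _)).clm_apply
            ((hCc.comp continuous_fst).clm_apply continuous_const)))
      (2 + (θ ^ 4)⁻¹) (fun p => (pi_norm_le_iff_of_nonneg (by positivity)).2 fun l =>
        (bound_f (hΦ p.1).1.1 hε (hC p.1) _ (norm_ev _) (diag_le ho (hΦ p.1).1 _) _).2)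
    obtain ⟨ρ, hρ⟩ : ∃ ρ : FreeGroup (Invol Γ ⊕ Fin m) →* unitary (EE B k →L[ℂ] EE B k),
        ρ = FreeGroup.lift
          (Sum.elim (fun s : Invol Γ => cayY (C A * NN B k s.1) (θ ^ 2)⁻¹) t) := ⟨_, rfl⟩
    rw [← hρ] at ht
    have hA1 : ∀ l, C A (A l) = (ρ (L.get l).1 : EE B k →L[ℂ] EE B k) (C A (ev (0, o))) := by
      intro l
      have h1 := congrFun hA l
      beta_reduce at h1
      rw [← hρ] at h1
      rw [h1]
      exact (bound_f (hΦ A).1.1 hε (hC A) _ (norm_ev _) (diag_le ho (hΦ A).1 _) _).1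
    have hnA : ∀ l, ‖C A (A l)‖ = ‖C A (ev (0, o))‖ := fun l => by rw [hA1, Unitary.norm_map]
    refine partB ho (g := g') g.2 (hΦ A).1 hθ hθ1 (hC A) A (hΦ A).2 hnA ?_
    have hker : Subgroup.normalClosure (Set.range v) ≤ ρ.ker :=
      Subgroup.normalClosure_le_normal (by rintro _ ⟨i, rfl⟩; exact ht i)
    have h1 := hker hmem
    rw [MonoidHom.mem_ker, map_mul, map_inv, mul_inv_eq_one, map_list_prod, List.map_map] at h1
    have h2 : ρ (FreeGroup.of (Sum.inl g)) = cayY (C A * NN B k g.1) (θ ^ 2)⁻¹ := by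
      rw [hρ, FreeGroup.lift_apply_of, Sum.elim_inl]
    rw [h2] at h1
    have h3 := prod_bound
      (ρ ∘ fun p : FreeGroup (Invol Γ ⊕ Fin m) × FreeGroup (Invol Γ) =>
        p.1⁻¹ * FreeGroup.map Sum.inl p.2 * p.1)
      (fun p => (p.2.toWord.length : ℝ) * ((2 + 8 * D) * θ)) (C A (ev (0, o))) L (fun p hp => by
        obtain ⟨l, rfl⟩ := List.get_of_mem hp
        rw [Function.comp_apply, map_mul, map_mul, map_inv, conj_norm, ← hA1]
        have h4 := partA ho (hΦ A).1 hθ hθ1 (hC A)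
          (fun s : Invol Γ => cayY (C A * NN B k s.1) (θ ^ 2)⁻¹) (fun _ => rfl) l.succ (A l)
          ((hΦ A).2 l) (hnA l) (L.get l).2.toWord (hB _ hp)
          (by rw [val, FreeGroup.mk_toWord]; exact hL _ hp)
        rw [FreeGroup.mk_toWord, ← lift_map_inl _ t, ← hρ] at h4
        exact h4)
    rw [← h1, List.sum_map_mul_right] at h3
    exact h3
  have hK : 0 ≤ n * (1 + 4 * D) + 3 := by positivity
  set K : ℝ := n * (1 + 4 * D) + 3 with hKdef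
  have hk0 : (0 : ℝ) ≤ k := Nat.cast_nonneg _
  have hpos : 0 < (k + 1) * K + 1 := by positivity
  have h := main ((k + 1) * K + 1)⁻¹ (inv_pos.2 hpos)
    (inv_le_one_of_one_le₀ (le_add_of_nonneg_left (by positivity)))
  set θ := ((k + 1) * K + 1)⁻¹ with hθ
  have hθ0 : 0 < θ := inv_pos.2 hpos
  have h1 : ((k + 1) * K + 1) * θ = 1 := mul_inv_cancel₀ hpos.ne'
  have h2 : n * ((2 + 8 * D) * θ) / 2 + 3 * θ = K * θ := by rw [hKdef]; ring
  rw [h2] at h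
  have h3 : (k + 1) * (K * θ) < 1 := by linarith
  have h4 : 0 ≤ K * θ := by positivity
  have h5 : K * θ < 1 := by nlinarith
  nlinarith

end Crest.Agent.R174
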