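import Crest.Agent.R174.Defs
import Crest.Agent.R134.Basic

/-! Row 174: the von Neumann dimension lemma. -/

set_option autoImplicit false
set_option linter.unusedSectionVars false
set_option linter.deprecated false

open MeasureTheory Monoid
open scoped InnerProductSpace

universe u

noncomputable section

namespace Crest.Agent.R174

namespace LemN

open Crest.Agent.R134 Crest.OpAlg

/-- abstract dimension comparison -/
theorem abstract {R : Type*} [Ring R] [StarRing R] [Algebra ℂ R] [StarModule ℂ R]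
    (tr : R →ₗ[ℂ] ℂ) (hcomm : ∀ a b, tr (a * b) = tr (b * a))
    (hpos : ∀ y, 0 ≤ (tr (star y * y)).re) {Q Q' X : R} (hQ : star Q = Q) (hQQ : Q * Q = Q)
    (hQ' : star Q' = Q') (hQQ' : Q' * Q' = Q') (hXQ : X * Q = X) (hQX : Q' * X = X)
    {C : ℝ} (hC : 0 < C)
    (hbd : ∀ y, (tr (star (star X * y) * (star X * y))).re ≤ C * (tr (star y * y)).re)
    (hlt : (tr Q').re < (tr Q).re) {δ : ℝ} (hδ : 0 < δ) :
    ∃ p, Q * p = p ∧ (tr (star (X * p) * (X * p))).re < δ * (tr (star p * p)).re := by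
  by_contra hcon
  push Not at hcon
  set c : ℂ := ((C⁻¹ : ℝ) : ℂ) with hc
  set S : R := 1 - c • (star X * X) with hS
  set S' : R := 1 - c • (X * star X) with hS'
  have hcs : star c = c := by rw [hc, Complex.star_def, Complex.conj_ofReal]
  have hSs : star S = S := by rw [hS, star_sub, star_one, star_smul, star_mul, star_star, hcs]
  have hSs' : star S' = S' := by rw [hS', star_sub, star_one, star_smul, star_mul, star_star, hcs]
  have hQX' : Q * star X = star X := by rw [← hQ, ← star_mul, hXQ]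
  have hXQ' : star X * Q' = star X := by rw [← hQ', ← star_mul, hQX]
  have hXS : ∀ m : ℕ, X * S ^ m = S' ^ m * X := by
    intro m
    induction m with
    | zero => simp
    | succ m ih =>
      rw [pow_succ, ← mul_assoc, ih, pow_succ, mul_assoc, mul_assoc]
      congr 1
      simp only [hS, hS', mul_sub, sub_mul, mul_one, one_mul, mul_smul_comm, smul_mul_assoc,
        mul_assoc]
  have hQS : Commute Q S := by
    rw [Commute, SemiconjBy, hS]
    simp only [mul_sub, sub_mul, mul_one, one_mul, mul_smul_comm, smul_mul_assoc, mul_assoc, hXQ]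
    rw [← mul_assoc, hQX']
  have hdiff : ∀ m : ℕ, tr (S ^ m * Q) - tr (S' ^ m * Q') = tr Q - tr Q' := by
    intro m
    induction m with
    | zero => simp
    | succ m ih =>
      have e1 : S ^ (m + 1) * Q = S ^ m * Q - c • (S ^ m * star X * X) := by
        rw [pow_succ, mul_assoc]
        conv_lhs => rw [hS]
        simp only [mul_sub, sub_mul, one_mul, mul_smul_comm, smul_mul_assoc, mul_assoc, hXQ, hS]
      have e2 : S' ^ (m + 1) * Q' = S' ^ m * Q' - c • (S' ^ m * X * star X) := by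
        rw [pow_succ, mul_assoc]
        conv_lhs => rw [hS']
        simp only [mul_sub, sub_mul, one_mul, mul_smul_comm, smul_mul_assoc, mul_assoc, hXQ', hS']
      rw [e1, e2, map_sub, map_sub, map_smul, map_smul, hcomm (S ^ m * star X), ← mul_assoc, hXS,
        ← ih]
      ring
  have hsq : ∀ (T P : R) (m : ℕ), star T = T → star P = P → P * P = P →
      tr (star (T ^ m * P) * (T ^ m * P)) = tr (T ^ (m + m) * P) := by
    intro T P m hT hP hPP
    rw [star_mul, star_pow, hT, hP, mul_assoc, hcomm, pow_add, mul_assoc, mul_assoc, mul_assoc, hPP]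
  set a : ℕ → ℝ := fun m => (tr (star (S ^ m * Q) * (S ^ m * Q))).re with ha
  set η := (tr Q).re - (tr Q').re with hη
  have hη0 : 0 < η := by rw [hη]; linarith
  have hlow : ∀ m, η ≤ a m := by
    intro m
    have h1 := hpos (S' ^ m * Q')
    rw [hsq S' Q' m hSs' hQ' hQQ'] at h1
    have h2 := congrArg Complex.re (hdiff (m + m))
    simp only [ha, hsq S Q m hSs hQ hQQ, Complex.sub_re] at h2 ⊢
    linarith
  have hstep : ∀ m, a (m + 1) ≤ a m - δ * η / C := by
    intro m
    set p := S ^ m * Q with hp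
    have hQp : Q * p = p := by rw [hp, ← mul_assoc, (hQS.pow_right m).eq, mul_assoc, hQQ]
    have e : star (S ^ (m + 1) * Q) * (S ^ (m + 1) * Q) = star p * p -
        (2 * c) • (star (X * p) * (X * p)) +
        (c * c) • (star (star X * (X * p)) * (star X * (X * p))) := by
      rw [pow_succ', mul_assoc, ← hp, star_mul, hSs, hS]
      simp only [mul_sub, sub_mul, one_mul, mul_smul_comm, smul_mul_assoc, mul_assoc, star_mul,
        star_star, smul_sub, smul_smul, two_mul, add_smul]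
      abel
    have h1 := hbd (X * p)
    have h2 := hcon p hQp
    have h3 := hlow m
    have h4 : a (m + 1) = a m - 2 * C⁻¹ * (tr (star (X * p) * (X * p))).re +
        C⁻¹ * C⁻¹ * (tr (star (star X * (X * p)) * (star X * (X * p)))).re := by
      simp only [ha]
      rw [e, map_add, map_sub, map_smul, map_smul, smul_eq_mul, smul_eq_mul, Complex.add_re,
        Complex.sub_re, hc, ← Complex.ofReal_mul, Complex.re_ofReal_mul,
        show (2 : ℂ) = ((2 : ℝ) : ℂ) by simp, ← Complex.ofReal_mul, Complex.re_ofReal_mul]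
    have h5 : C⁻¹ * C⁻¹ * (tr (star (star X * (X * p)) * (star X * (X * p)))).re ≤
        C⁻¹ * (tr (star (X * p) * (X * p))).re := by
      calc _ ≤ C⁻¹ * C⁻¹ * (C * (tr (star (X * p) * (X * p))).re) := by gcongr
        _ = _ := by field_simp
    have h6 : δ * η / C ≤ C⁻¹ * (tr (star (X * p) * (X * p))).re := by
      rw [div_eq_inv_mul]
      have : δ * η ≤ δ * a m := by gcongr
      have h7 : δ * a m ≤ (tr (star (X * p) * (X * p))).re := h2
      gcongr; linarith
    linarith
  have hall : ∀ m : ℕ, a m ≤ a 0 - m * (δ * η / C) := by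
    intro m
    induction m with
    | zero => simp
    | succ m ih => have := hstep m; push_cast; linarith
  obtain ⟨m, hm⟩ := exists_nat_gt (a 0 / (δ * η / C))
  rw [div_lt_iff₀ (by positivity)] at hm
  have := hall m; have := hlow m
  linarith

variable {Γ : Type*} [Group Γ] [DecidableEq Γ]

lemma tau_comm {a b : BH Γ} (ha : a ∈ MM Γ) (hb : b ∈ MM Γ) :
    ⟪dl 1, (a * b) (dl 1)⟫_ℂ = ⟪dl 1, (b * a) (dl 1)⟫_ℂ := by
  have h : ∀ x y : BH Γ, ⟪dl 1, (x * y) (dl 1)⟫_ℂ = ⟪(star x) (dl 1), y (dl 1)⟫_ℂ := fun x y => by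
    rw [ContinuousLinearMap.star_eq_adjoint, ContinuousLinearMap.adjoint_inner_left]; rfl
  have h2 : ∀ c : ℂ, ‖c‖ = 1 →
      ‖(star a) (dl 1) + c • b (dl 1)‖ = ‖(star b) (dl 1) + c • a (dl 1)‖ := fun c hc => by
    have := tr_star (add_mem ha (SMulMemClass.smul_mem (star c) (star_mem hb)))
    rw [star_add, star_smul, star_star, star_star] at this
    refine this.trans ?_
    have e : (star b) (dl 1) + c • a (dl 1) = c • (a + star c • star b) (dl 1) := by
      rw [ContinuousLinearMap.add_apply, ContinuousLinearMap.smul_apply, smul_add, smul_smul,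
        Complex.star_def, Complex.mul_conj, Complex.normSq_eq_norm_sq, hc]
      simp [add_comm]
    rw [e, norm_smul, hc, one_mul]
  rw [h, h, inner_eq_sum_norm_sq_div_four, inner_eq_sum_norm_sq_div_four]
  have e1 := h2 1 (by simp)
  have e2 := h2 (-1) (by simp)
  have e3 := h2 RCLike.I (by simp)
  have e4 := h2 (-RCLike.I) (by simp)
  simp only [one_smul, neg_smul, ← sub_eq_add_neg] at e1 e2 e3 e4
  rw [e1, e2, e3, e4]

variable {n : Type*} [Fintype n] [DecidableEq n]

/-- the trace on matrices over the group von Neumann algebra -/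
def tr : Matrix n n (MM Γ) →ₗ[ℂ] ℂ where
  toFun a := ∑ j, ⟪dl 1, (a j j : BH Γ) (dl 1)⟫_ℂ
  map_add' a b := by simp [Finset.sum_add_distrib]
  map_smul' c a := by simp [Finset.mul_sum]

lemma tr_apply (a : Matrix n n (MM Γ)) : tr a = ∑ j, ⟪dl 1, (a j j : BH Γ) (dl 1)⟫_ℂ := rfl

lemma tr_mul_eq (a b : Matrix n n (MM Γ)) :
    tr (a * b) = ∑ j, ∑ i, ⟪dl 1, ((a j i : BH Γ) * (b i j : BH Γ)) (dl 1)⟫_ℂ := by
  rw [tr_apply]
  refine Finset.sum_congr rfl fun j _ => ?_
  rw [Matrix.mul_apply, AddSubmonoidClass.coe_finsetSum, _root_.sum_apply, inner_sum]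
  rfl

lemma tr_comm (a b : Matrix n n (MM Γ)) : tr (a * b) = tr (b * a) := by
  rw [tr_mul_eq, tr_mul_eq, Finset.sum_comm]
  exact Finset.sum_congr rfl fun i _ => Finset.sum_congr rfl fun j _ => tau_comm (a j i).2 (b i j).2

lemma tr_sq (y : Matrix n n (MM Γ)) :
    (tr (star y * y)).re = ∑ j, ∑ i, ‖(y i j : BH Γ) (dl 1)‖ ^ 2 := by
  rw [tr_mul_eq, Complex.re_sum]
  refine Finset.sum_congr rfl fun j _ => ?_
  rw [Complex.re_sum]
  refine Finset.sum_congr rfl fun i _ => ?_
  rw [Matrix.star_apply, StarMemClass.coe_star, ContinuousLinearMap.mul_apply,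
    ContinuousLinearMap.star_eq_adjoint, ContinuousLinearMap.adjoint_inner_right,
    inner_self_eq_norm_sq_to_K]
  norm_cast

lemma mul_app (a b : Matrix n n (MM Γ)) (i j : n) (η : ltwo Γ) :
    ((a * b) i j : BH Γ) η = ∑ l, (a i l : BH Γ) ((b l j : BH Γ) η) := by
  rw [Matrix.mul_apply, AddSubmonoidClass.coe_finsetSum, _root_.sum_apply]
  rfl

lemma tr_bd (Z y : Matrix n n (MM Γ)) :
    (tr (star (Z * y) * (Z * y))).re ≤ (∑ i, ∑ l, ‖(Z i l : BH Γ)‖ ^ 2) * (tr (star y * y)).re := by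
  rw [tr_sq, tr_sq, Finset.mul_sum]
  refine Finset.sum_le_sum fun j _ => ?_
  rw [Finset.sum_mul]
  refine Finset.sum_le_sum fun i _ => ?_
  rw [mul_app]
  refine le_trans ?_ (Finset.sum_mul_sq_le_sq_mul_sq _ _ _)
  refine pow_le_pow_left₀ (norm_nonneg _) ((norm_sum_le _ _).trans ?_) 2
  exact Finset.sum_le_sum fun l _ => ContinuousLinearMap.le_opNorm _ _

/-- existence of the vectors -/
theorem exists_vec (k : ℕ) {g : Γ} (hg : g * g = 1) (hg1 : g ≠ 1)
    (x : Fin k → Fin (k + 1) → MM Γ) {δ : ℝ} (hδ : 0 < δ) :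
    ∃ ξ : Fin (k + 1) → ltwo Γ, ∑ j, ‖ξ j‖ ^ 2 = 1 ∧ lam g (ξ 0) = -ξ 0 ∧
      ∀ l, ‖∑ j, (x l j : BH Γ) (ξ j)‖ ^ 2 < δ := by
  set u : MM Γ := ⟨lam g, lam_mem g⟩ with hu
  have huu : u * u = 1 := Subtype.ext (by
    change lam g * lam g = 1
    rw [← map_mul, hg, map_one])
  have hus : star u = u := Subtype.ext (by
    change star (lam g) = lam g
    rw [star_lam, inv_eq_of_mul_eq_one_right hg])
  set q : MM Γ := (2⁻¹ : ℂ) • (1 - u) with hq
  have hqs : star q = q := by rw [hq, star_smul, star_sub, star_one, hus]; simp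
  have hqq : q * q = q := by
    rw [hq, smul_mul_assoc, mul_smul_comm, mul_sub, sub_mul, sub_mul, huu]
    simp only [mul_one, one_mul]
    module
  set Q : Matrix (Fin (k + 1)) (Fin (k + 1)) (MM Γ) := Matrix.diagonal (Fin.cons q fun _ => 1)
    with hQ
  set Q' : Matrix (Fin (k + 1)) (Fin (k + 1)) (MM Γ) := Matrix.diagonal (Fin.cons 0 fun _ => 1)
    with hQ'
  set X₀ : Matrix (Fin (k + 1)) (Fin (k + 1)) (MM Γ) := Matrix.of (Fin.cons 0 x) with hX₀
  have hQQ : Q * Q = Q := by
    rw [hQ, Matrix.diagonal_mul_diagonal]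
    congr 1; funext j
    refine Fin.cases ?_ (fun j => ?_) j <;> simp [hqq]
  have hQX : Q' * X₀ = X₀ := by
    ext1 i j
    rw [hQ', Matrix.diagonal_mul]
    refine Fin.cases ?_ (fun i => ?_) i <;> simp [hX₀]
  obtain ⟨p, hp, hlt⟩ := abstract (tr (Γ := Γ) (n := Fin (k + 1))) tr_comm
    (fun y => by rw [tr_sq]; positivity) (Q := Q) (Q' := Q') (X := X₀ * Q)
    (by
      rw [hQ, Matrix.star_eq_conjTranspose, Matrix.diagonal_conjTranspose]
      congr 1; funext j
      refine Fin.cases ?_ (fun j => ?_) j <;> simp [hqs])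
    hQQ
    (by
      rw [hQ', Matrix.star_eq_conjTranspose, Matrix.diagonal_conjTranspose]
      congr 1; funext j
      refine Fin.cases ?_ (fun j => ?_) j <;> simp)
    (by
      rw [hQ', Matrix.diagonal_mul_diagonal]
      congr 1; funext j
      refine Fin.cases ?_ (fun j => ?_) j <;> simp)
    (by rw [mul_assoc, hQQ]) (by rw [← mul_assoc, hQX])
    (C := (∑ i, ∑ l, ‖((star (X₀ * Q)) i l : BH Γ)‖ ^ 2) + 1) (by positivity)
    (fun y => (tr_bd _ y).trans (by
      have : 0 ≤ (tr (star y * y)).re := by rw [tr_sq]; positivity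
      nlinarith))
    (by
      rw [tr_apply, tr_apply, Fin.sum_univ_succ, Fin.sum_univ_succ, Complex.add_re, Complex.add_re]
      simp only [hQ, hQ', Matrix.diagonal_apply_eq, Fin.cons_zero, Fin.cons_succ,
        add_lt_add_iff_right]
      have e : (q : BH Γ) (dl 1) = (2⁻¹ : ℂ) • (dl 1 - dl g) := by
        change (2⁻¹ : ℂ) • (dl 1 - lam g (dl 1)) = _
        rw [lam_dl, mul_one]
      rw [e, inner_dl, inner_dl]
      simp [dl_apply, hg1.symm])
    hδ
  rw [mul_assoc, hp, tr_sq, tr_sq, Finset.mul_sum] at hlt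
  obtain ⟨c, -, hc⟩ := Finset.exists_lt_of_sum_lt hlt
  set s := ∑ i, ‖(p i c : BH Γ) (dl 1)‖ ^ 2 with hs
  have hs0 : 0 < s := by
    have : 0 ≤ ∑ i, ‖((X₀ * p) i c : BH Γ) (dl 1)‖ ^ 2 := by positivity
    exact (mul_pos_iff_of_pos_left hδ).1 (this.trans_lt hc)
  set r : ℂ := (((√s)⁻¹ : ℝ) : ℂ) with hr
  have hr2 : ‖r‖ ^ 2 = s⁻¹ := by
    rw [hr, Complex.norm_real, Real.norm_eq_abs, sq_abs, inv_pow, Real.sq_sqrt hs0.le]
  refine ⟨fun j => r • (p j c : BH Γ) (dl 1), ?_, ?_, fun l => ?_⟩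
  · simp only [norm_smul, mul_pow, hr2, ← Finset.mul_sum]
    exact inv_mul_cancel₀ hs0.ne'
  · have h1 : q * p 0 c = p 0 c := by
      have := congrFun (congrFun hp 0) c
      rwa [hQ, Matrix.diagonal_mul, Fin.cons_zero] at this
    have h2 : u * p 0 c = -p 0 c := by
      rw [← h1, ← mul_assoc, ← neg_mul]
      congr 1
      rw [hq, mul_smul_comm, mul_sub, huu, mul_one, ← smul_neg, neg_sub]
    have h3 := congrArg (fun y : MM Γ => (y : BH Γ) (dl 1)) h2
    rw [map_smul, ← smul_neg]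
    exact congrArg _ h3
  · simp only [map_smul, ← Finset.smul_sum, norm_smul, mul_pow, hr2]
    rw [inv_mul_lt_iff₀ hs0, mul_comm]
    refine lt_of_le_of_lt ?_ hc
    refine le_trans (le_of_eq ?_) (Finset.single_le_sum
      (f := fun i => ‖((X₀ * p) i c : BH Γ) (dl 1)‖ ^ 2) (fun _ _ => sq_nonneg _)
      (Finset.mem_univ l.succ))
    simp only [mul_app, hX₀, Matrix.of_apply, Fin.cons_succ]

end LemN

open LemN Crest.Agent.R134 Crest.OpAlg in
/-- the von Neumann dimension lemma -/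
theorem lemN (Γ : Type*) [Group Γ] [DecidableEq Γ] : LemNStmt Γ := by
  intro B k o g ho hg hg1 v δ hδ
  obtain ⟨ξ, h1, h2, h3⟩ := exists_vec k hg hg1
    (fun l j => ∑ a : B, v l (j, a) • (⟨lam a.1, lam_mem a.1⟩ : MM Γ)) hδ
  let R₀ : EuclideanSpace ℂ (Fin (k + 1) × B) →ₗ[ℂ] ltwo Γ :=
    { toFun := fun y => ∑ p, y p • lam p.2.1 (ξ p.1)
      map_add' := fun y z => by simp [add_smul, Finset.sum_add_distrib]
      map_smul' := fun c y => by simp [mul_smul, Finset.smul_sum] }
  let R : EuclideanSpace ℂ (Fin (k + 1) × B) →L[ℂ] ltwo Γ := LinearMap.toContinuousLinearMap R₀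
  have hR : ∀ y, R y = ∑ p, y p • lam p.2.1 (ξ p.1) := fun y => rfl
  have hev : ∀ p, R (ev p) = lam p.2.1 (ξ p.1) := fun p => by
    rw [hR, Finset.sum_eq_single p]
    · simp [ev]
    · intro q _ hq; simp [ev, hq]
    · simp
  have hin : ∀ y z, ⟪y, (ContinuousLinearMap.adjoint R ∘L R) z⟫_ℂ = ⟪R y, R z⟫_ℂ := fun y z => by
    rw [ContinuousLinearMap.comp_apply, ContinuousLinearMap.adjoint_inner_right]
  have hre : ∀ y : ltwo Γ, (⟪y, y⟫_ℂ).re = ‖y‖ ^ 2 := fun y => by
    rw [inner_self_eq_norm_sq_to_K]; norm_cast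
  refine ⟨ContinuousLinearMap.adjoint R ∘L R, ⟨?_, ?_, ?_, ?_⟩, fun l => ?_⟩
  · exact (ContinuousLinearMap.nonneg_iff_isPositive _).2
      (ContinuousLinearMap.isPositive_adjoint_comp_self R)
  · intro s i j a a' b b' hb hb'
    rw [hin, hin, hev, hev, hev, hev]
    simp only [hb, hb', map_mul, ContinuousLinearMap.mul_apply]
    exact ContinuousLinearMap.inner_map_map_of_mem_unitary (lam_unitary s) _ _
  · simp only [hin, hev, hre, ho, map_one, ContinuousLinearMap.one_apply, h1]
  · rw [ContinuousLinearMap.comp_apply, map_add, hev, hev, h2, ho]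
    simp
  · rw [hin, hre, hR, Fintype.sum_prod_type]
    convert h3 l using 4 with j
    rw [AddSubmonoidClass.coe_finsetSum, _root_.sum_apply]
    rfl

end Crest.Agent.R174
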