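import Crest.Agent.R174.Top1

/-! Parametrised Gerstenhaber–Rothaus + Brouwer, continuous version. -/

set_option autoImplicit false

open MeasureTheory Module Filter Topology
open scoped Manifold

noncomputable section

namespace Crest.Agent.R174

variable {B : Type*} [CStarAlgebra B]

theorem exists_contDiff_sel {E F : Type*} [NormedAddCommGroup E] [NormedSpace ℝ E]
    [FiniteDimensional ℝ E] [NormedAddCommGroup F] [NormedSpace ℝ F] {t : E → Set F}
    (ht : ∀ x, Convex ℝ (t x)) (hloc : ∀ x, ∃ c : F, ∀ᶠ y in 𝓝 x, c ∈ t y) :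
    ∃ g : E → F, ContDiff ℝ 2 g ∧ ∀ x, g x ∈ t x := by
  obtain ⟨g, hg⟩ := exists_contMDiffMap_forall_mem_convex_of_local_const (n := 2) 𝓘(ℝ, E) ht hloc
  exact ⟨g, contMDiff_iff_contDiff.1 g.contMDiff, hg⟩

theorem continuous_cay : Continuous (cay : selfAdjoint B → unitary B) :=
  continuous_induced_rng.2 (continuous_iff_continuousAt.2 fun b =>
    ContinuousAt.comp (f := fun b : selfAdjoint B => (b : B)) (contDiffAt_cay0 b.2).continuousAt
      continuous_subtype_val.continuousAt)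

theorem continuous_lift {α K : Type*} [Group K] [TopologicalSpace K] [IsTopologicalGroup K]
    (w : FreeGroup α) : Continuous fun u : α → K => FreeGroup.lift u w := by
  induction w using FreeGroup.induction_on with
  | C1 => simpa using continuous_const
  | of x => simpa using continuous_apply x
  | inv_of x ih => simp only [map_inv]; exact ih.inv
  | mul x y hx hy => simp only [map_mul]; exact hx.mul hy

theorem approx_sa {Z : Type*} [NormedAddCommGroup Z] [NormedSpace ℝ Z] [FiniteDimensional ℝ Z]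
    {b : Z → selfAdjoint B} (hb : Continuous b) {δ : ℝ} (hδ : 0 < δ) :
    ∃ b' : Z → selfAdjoint B, (ContDiff ℝ 2 fun z => (b' z : B)) ∧ ∀ z, dist (b' z) (b z) < δ := by
  suffices h : ∃ g : Z → B, ContDiff ℝ 2 g ∧
      ∀ z, g z ∈ {c : B | IsSelfAdjoint c} ∩ Metric.ball (b z : B) δ by
    obtain ⟨g, hg, hg'⟩ := h
    exact ⟨fun z => ⟨g z, (hg' z).1⟩, hg, fun z => (hg' z).2⟩
  refine exists_contDiff_sel (fun z => ?_) (fun z => ?_)
  · refine Convex.inter ?_ (convex_ball _ _)
    intro x hx y hy a c _ _ _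
    exact ((IsSelfAdjoint.all a).smul hx).add ((IsSelfAdjoint.all c).smul hy)
  · refine ⟨b z, ?_⟩
    have h : ∀ᶠ y in 𝓝 z, b y ∈ Metric.ball (b z) δ :=
      hb.continuousAt.eventually (Metric.ball_mem_nhds _ hδ)
    filter_upwards [h] with y hy
    exact ⟨(b z).2, Metric.mem_ball_comm.1 hy⟩

theorem approx_f [FiniteDimensional ℂ B] {ι Z : Type*} [Fintype ι] [NormedAddCommGroup Z]
    [NormedSpace ℝ Z] [FiniteDimensional ℝ Z] {f : Z × (ι → unitary B) → Z} (hf : Continuous f)
    {δ : ℝ} (hδ : 0 < δ) :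
    ∃ g : Z × (ι → B) → Z, ContDiff ℝ 2 g ∧
      ∀ z (t : ι → unitary B), dist (g (z, fun i => t i)) (f (z, t)) < δ := by
  let j : Z × (ι → unitary B) → Z × (ι → B) := fun p => (p.1, fun i => p.2 i)
  have hj : IsClosedEmbedding j :=
    IsClosedEmbedding.id.prodMap
      (IsClosedEmbedding.piMap fun _ => isClosed_unitary.isClosedEmbedding_subtypeVal)
  suffices h : ∃ g : Z × (ι → B) → Z, ContDiff ℝ 2 g ∧
      ∀ p, g p ∈ ⋂ q ∈ j ⁻¹' {p}, Metric.ball (f q) δ by
    obtain ⟨g, hg, hg'⟩ := h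
    refine ⟨g, hg, fun z t => ?_⟩
    exact Set.mem_iInter₂.1 (hg' (j (z, t))) (z, t) rfl
  refine exists_contDiff_sel (fun p => ?_) (fun p => ?_)
  · exact convex_iInter₂ fun q _ => convex_ball _ _
  · by_cases hp : p ∈ Set.range j
    · obtain ⟨q, rfl⟩ := hp
      refine ⟨f q, ?_⟩
      have h : ∀ᶠ y in 𝓝 q, f y ∈ Metric.ball (f q) δ :=
        hf.continuousAt.eventually (Metric.ball_mem_nhds _ hδ)
      rw [hj.isInducing.nhds_eq_comap, eventually_comap] at h
      filter_upwards [h] with y hy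
      exact Set.mem_iInter₂.2 fun q' hq' => Metric.mem_ball_comm.1 (hy q' hq')
    · refine ⟨0, ?_⟩
      filter_upwards [hj.isClosed_range.isOpen_compl.mem_nhds hp] with y hy
      exact Set.mem_iInter₂.2 fun q' hq' => (hy ⟨q', hq'⟩).elim

theorem topStmt_of [FiniteDimensional ℂ B] [Nontrivial B] {τ : B →ₗ[ℝ] ℝ} (hτ : IsFTrace B τ)
    (S ι Z : Type*) [Fintype ι] [DecidableEq ι]
    [NormedAddCommGroup Z] [NormedSpace ℝ Z] [FiniteDimensional ℝ Z]
    (hW : WordStmt B (ι ⊕ Fin (finrank ℝ Z))) : TopStmt B S ι Z := by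
  intro w d hd hw b hb f hf R hR
  have hδ : ∀ n : ℕ, (0 : ℝ) < 1 / ((n : ℝ) + 1) := fun n => Nat.one_div_pos_of_nat
  have hδ1 : ∀ n : ℕ, 1 / ((n : ℝ) + 1) ≤ 1 := fun n => by
    rw [div_le_one (by positivity)]; linarith [n.cast_nonneg (α := ℝ)]
  choose b' hb' hb'' using fun (n : ℕ) (s : S) => approx_sa (hb s) (hδ n)
  choose g hg hg' using fun n : ℕ => approx_f hf (hδ n)
  have hgR : ∀ n z (t : ι → unitary B), ‖g n (z, fun i => t i)‖ ≤ R + 1 := by
    intro n z t
    have h1 := hg' n z t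
    rw [dist_eq_norm] at h1
    have h2 := norm_le_norm_add_norm_sub' (g n (z, fun i => t i)) (f (z, t))
    linarith [hR (z, t), hδ1 n]
  choose z t hz ht using fun n : ℕ =>
    top_smooth hτ hW w d hd hw (b' n) (hb' n) (g n) (hg n) (R + 1) (hgR n)
  haveI : ProperSpace Z := FiniteDimensional.proper ℝ Z
  have hc : IsCompact (Metric.closedBall (0 : Z) (R + 1) ×ˢ (Set.univ : Set (ι → unitary B))) :=
    (isCompact_closedBall _ _).prod isCompact_univ
  obtain ⟨⟨z₀, t₀⟩, -, φ, hφ, hlim⟩ := hc.tendsto_subseq (x := fun n => (z n, t n))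
    (fun n => ⟨by rw [mem_closedBall_zero_iff, hz n]; exact hgR n _ _, trivial⟩)
  have hδ0 : Tendsto (fun n => 1 / (((φ n : ℕ) : ℝ) + 1)) atTop (𝓝 0) :=
    tendsto_one_div_add_atTop_nhds_zero_nat.comp hφ.tendsto_atTop
  have hz0 : Tendsto (fun n => z (φ n)) atTop (𝓝 z₀) := (continuous_fst.tendsto _).comp hlim
  have ht0 : Tendsto (fun n => t (φ n)) atTop (𝓝 t₀) := (continuous_snd.tendsto _).comp hlim
  refine ⟨z₀, t₀, ?_, fun i => ?_⟩
  · have h1 : Tendsto (fun n => f (z (φ n), t (φ n))) atTop (𝓝 (f (z₀, t₀))) :=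
      (hf.tendsto _).comp hlim
    refine tendsto_nhds_unique hz0 (h1.congr_dist ?_)
    refine squeeze_zero (fun _ => dist_nonneg) (fun n => ?_) hδ0
    rw [dist_comm]
    conv_lhs => enter [1]; rw [hz (φ n)]
    exact (hg' _ _ _).le
  · have h1 : Tendsto (fun n => Sum.elim (fun s => cay (b' (φ n) s (z (φ n)))) (t (φ n))) atTop
        (𝓝 (Sum.elim (fun s => cay (b s z₀)) t₀)) := by
      rw [tendsto_pi_nhds]
      rintro (s | j)
      · refine (continuous_cay.tendsto _).comp ?_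
        refine (((hb s).tendsto _).comp hz0).congr_dist ?_
        refine squeeze_zero (fun _ => dist_nonneg) (fun n => ?_) hδ0
        rw [dist_comm]
        exact (hb'' _ _ _).le
      · exact tendsto_pi_nhds.1 ht0 j
    have h2 := ((continuous_lift (w i)).tendsto _).comp h1
    have h3 : ((fun u : S ⊕ ι → unitary B => FreeGroup.lift u (w i)) ∘ fun n =>
        Sum.elim (fun s => cay (b' (φ n) s (z (φ n)))) (t (φ n))) = fun _ => 1 :=
      funext fun n => ht (φ n) i
    rw [h3] at h2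
    exact tendsto_nhds_unique h2 tendsto_const_nhds

/-- the real part of the trace on `E →L E` is a faithful trace -/
theorem exists_ftrace (E : Type*) [NormedAddCommGroup E] [InnerProductSpace ℂ E]
    [FiniteDimensional ℂ E] [CompleteSpace E] :
    ∃ τ : (E →L[ℂ] E) →ₗ[ℝ] ℝ, IsFTrace (E →L[ℂ] E) τ := by
  let e := stdOrthonormalBasis ℂ E
  let τ : (E →L[ℂ] E) →ₗ[ℝ] ℝ :=
    { toFun := fun a => (LinearMap.trace ℂ E (a : E →ₗ[ℂ] E)).re
      map_add' := fun a b => by simp
      map_smul' := fun c a => by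
        have : ((c • a : E →L[ℂ] E) : E →ₗ[ℂ] E) = (c : ℂ) • (a : E →ₗ[ℂ] E) := by
          ext x; simp
        rw [this]; simp }
  refine ⟨τ, fun a b => ?_, fun a ha => ?_⟩
  · change (LinearMap.trace ℂ E ((a : E →ₗ[ℂ] E) * b)).re =
      (LinearMap.trace ℂ E ((b : E →ₗ[ℂ] E) * a)).re
    rw [LinearMap.trace_mul_comm]
  · change 0 < (LinearMap.trace ℂ E ((star a * a : E →L[ℂ] E) : E →ₗ[ℂ] E)).re
    rw [LinearMap.trace_eq_sum_inner _ e, Complex.re_sum]
    have h1 : ∀ i, (inner ℂ (e i) (((star a * a : E →L[ℂ] E) : E →ₗ[ℂ] E) (e i))).re =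
        ‖a (e i)‖ ^ 2 := by
      intro i
      change (inner ℂ (e i) (ContinuousLinearMap.adjoint a (a (e i)))).re = _
      rw [ContinuousLinearMap.adjoint_inner_right, inner_self_eq_norm_sq_to_K]
      norm_cast
    simp only [h1]
    have h2 : ∃ i, a (e i) ≠ 0 := by
      by_contra h
      push Not at h
      refine ha (ContinuousLinearMap.coe_injective (e.toBasis.ext fun i => ?_))
      simpa using h i
    obtain ⟨i, hi⟩ := h2
    exact Finset.sum_pos' (fun j _ => by positivity) ⟨i, Finset.mem_univ _, by positivity⟩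

end Crest.Agent.R174
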