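import Crest.Agent.R174.Deg

/-! Parametrised Gerstenhaber–Rothaus + Brouwer, smooth version. -/

set_option autoImplicit false

open MeasureTheory Module

noncomputable section

namespace Crest.Agent.R174

/-- nonvanishing of the degree of word maps (proved in `Word.lean`) -/
def WordStmt (B ι : Type*) [CStarAlgebra B] [FiniteDimensional ℂ B] [Fintype ι]
    [DecidableEq ι] : Prop :=
  ∀ (L : ι → List (ι × Bool)) (d : ℕ), 0 < d →
    (∀ i j, ((L i).count (j, true) : ℤ) - (L i).count (j, false) = if i = j then (d : ℤ) else 0) →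
    deg (A := ι → B) (fun _ => 1) (wordMap L) ≠ 0

variable {B : Type*} [CStarAlgebra B]

theorem mem_unitary_pi {ι : Type*} [Fintype ι] {t : ι → B} :
    t ∈ unitary (ι → B) ↔ ∀ i, t i ∈ unitary B := by
  simp only [Unitary.mem_iff, funext_iff, Pi.mul_apply, Pi.star_apply, Pi.one_apply, forall_and]

theorem coe_lift_mk {α : Type*} (u : α → unitary B) (l : List (α × Bool)) :
    ((FreeGroup.lift u (FreeGroup.mk l) : unitary B) : B) =
      (l.map (ltr fun a => (u a : B))).prod := by
  rw [FreeGroup.lift_mk]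
  induction l with
  | nil => simp
  | cons p l ih =>
    obtain ⟨a, e⟩ := p
    rw [List.map_cons, List.prod_cons, List.map_cons, List.prod_cons, ← ih]
    cases e <;> rfl

theorem prod_ltr_mem {α : Type*} {u : α → B} (hu : ∀ a, u a ∈ unitary B) (l : List (α × Bool)) :
    (l.map (ltr u)).prod ∈ unitary B := by
  have := coe_lift_mk (fun a => (⟨u a, hu a⟩ : unitary B)) l
  simp only at this
  rw [← this]; exact Subtype.prop _

theorem expS_mk {α : Type*} [DecidableEq α] (a : α) (l : List (α × Bool)) :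
    Multiplicative.toAdd (expS a (FreeGroup.mk l)) =
      (l.count (a, true) : ℤ) - l.count (a, false) := by
  rw [expS, FreeGroup.lift_mk]
  induction l with
  | nil => simp
  | cons p l ih =>
    obtain ⟨x, e⟩ := p
    rw [List.map_cons, List.prod_cons, toAdd_mul, ih]
    by_cases h : x = a
    · subst h; cases e <;> simp <;> ring
    · cases e <;> simp [h]

theorem contDiffAt_prod_ltr {α E : Type*} [NormedAddCommGroup E] [NormedSpace ℝ E]
    {u : E → α → B} {x : E} (hu : ∀ a, ContDiffAt ℝ 2 (fun y => u y a) x) (l : List (α × Bool)) :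
    ContDiffAt ℝ 2 (fun y => (l.map (ltr (u y))).prod) x := by
  induction l with
  | nil => simpa using contDiffAt_const
  | cons p l ih =>
    obtain ⟨a, e⟩ := p
    simp only [List.map_cons, List.prod_cons]
    refine ContDiffAt.mul ?_ ih
    cases e
    · simp only [ltr, Bool.false_eq_true, if_false]
      exact (starL' ℝ : B ≃L[ℝ] B).contDiff.contDiffAt.comp x (hu a)
    · simpa only [ltr, if_true] using hu a

theorem contDiffAt_cay0 {b : B} (hb : IsSelfAdjoint b) : ContDiffAt ℝ 2 (cay0 : B → B) b := by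
  have h1 : ContDiffAt ℝ 2 (Ring.inverse : B → B) (1 + Complex.I • b) := by
    obtain ⟨u, hu⟩ := isUnit_cay hb
    rw [← hu]; exact contDiffAt_ringInverse ℝ u
  have h2 : ContDiff ℝ 2 fun b : B => 1 + Complex.I • b :=
    contDiff_const.add (contDiff_id.const_smul Complex.I)
  exact (contDiffAt_const.mul (ContDiffAt.comp (f := fun b : B => 1 + Complex.I • b) b h1
    h2.contDiffAt)).sub contDiffAt_const

theorem cay0_zero : cay0 (0 : B) = 1 := by
  simp only [cay0, smul_zero, add_zero, Ring.inverse_one, mul_one]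
  rw [← one_add_one_eq_two]; abel

variable (B) in
/-- the scalar unitary with imaginary part `y` -/
def sc (y : ℝ) : B := ((√(1 - y ^ 2) : ℝ) + y * Complex.I : ℂ) • (1 : B)

theorem sc_zero : sc B 0 = 1 := by simp [sc]

theorem sc_mem {y : ℝ} (hy : |y| < 1) : sc B y ∈ unitary B := by
  have h : 0 ≤ 1 - y ^ 2 := by have := (sq_lt_one_iff_abs_lt_one y).2 hy; linarith
  have h2 : ((√(1 - y ^ 2) : ℝ) : ℂ) ^ 2 = 1 - y ^ 2 := by
    rw [← Complex.ofReal_pow, Real.sq_sqrt h]; push_cast; ring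
  have h3 : star ((√(1 - y ^ 2) : ℝ) + y * Complex.I : ℂ) *
      ((√(1 - y ^ 2) : ℝ) + y * Complex.I : ℂ) = 1 := by
    simp only [Complex.star_def, map_add, Complex.conj_ofReal, map_mul, Complex.conj_I]
    linear_combination h2 - (y : ℂ) ^ 2 * Complex.I_sq
  rw [Unitary.mem_iff, sc, star_smul, star_one, smul_mul_smul_comm, smul_mul_smul_comm, h3,
    mul_comm _ (star _), h3]
  simp

theorem contDiffAt_sc {y : ℝ} (hy : |y| < 1) : ContDiffAt ℝ 2 (sc B) y := by
  have h : 1 - y ^ 2 ≠ 0 := by have := (sq_lt_one_iff_abs_lt_one y).2 hy; linarith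
  have h1 : ContDiffAt ℝ 2 (fun y : ℝ => √(1 - y ^ 2)) y :=
    (contDiffAt_const.sub (contDiffAt_id.pow 2)).sqrt h
  have h2 : ContDiffAt ℝ 2 (fun y : ℝ => ((√(1 - y ^ 2) : ℝ) + y * Complex.I : ℂ)) y :=
    (Complex.ofRealCLM.contDiff.contDiffAt.comp y h1).add
      (Complex.ofRealCLM.contDiff.contDiffAt.mul contDiffAt_const)
  exact h2.smul (contDiffAt_const (c := (1 : B)))

theorem exists_dec [Nontrivial B] : ∃ κ : B →L[ℝ] ℝ, ∀ y, κ (sc B y) = y := by
  obtain ⟨φ, -, hφ⟩ := exists_dual_vector ℂ (1 : B) (by simp)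
  refine ⟨Complex.imCLM.comp (φ.restrictScalars ℝ), fun y => ?_⟩
  simp [sc, hφ]

theorem isFTrace_pi {τ : B →ₗ[ℝ] ℝ} (hτ : IsFTrace B τ) (ι : Type*) [Fintype ι] :
    IsFTrace (ι → B) (∑ i : ι, τ ∘ₗ LinearMap.proj i) := by
  constructor
  · intro a b
    simp only [LinearMap.coe_sum, Finset.sum_apply, LinearMap.comp_apply, LinearMap.proj_apply,
      Pi.mul_apply]
    exact Finset.sum_congr rfl fun i _ => hτ.comm _ _
  · intro a ha
    simp only [LinearMap.coe_sum, Finset.sum_apply, LinearMap.comp_apply, LinearMap.proj_apply,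
      Pi.mul_apply, Pi.star_apply]
    obtain ⟨i, hi⟩ := Function.ne_iff.1 ha
    refine Finset.sum_pos' (fun j _ => ?_) ⟨i, Finset.mem_univ _, hτ.pos _ hi⟩
    by_cases h : a j = 0
    · simp [h]
    · exact (hτ.pos _ h).le

/-- keep only the unknown letters -/
def keep {S ι κ : Type*} : (S ⊕ ι) × Bool → Option ((ι ⊕ κ) × Bool)
  | (Sum.inl _, _) => none
  | (Sum.inr j, e) => some (Sum.inl j, e)

theorem keep_inl {S ι κ : Type*} (a : S) (e : Bool) (l : List ((S ⊕ ι) × Bool)) :
    ((Sum.inl a, e) :: l).filterMap (keep (κ := κ)) = l.filterMap keep := rfl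

theorem keep_inr {S ι κ : Type*} (a : ι) (e : Bool) (l : List ((S ⊕ ι) × Bool)) :
    ((Sum.inr a, e) :: l).filterMap (keep (κ := κ)) = (Sum.inl a, e) :: l.filterMap keep := rfl

theorem prod_keep {S ι κ : Type*} (x : ι ⊕ κ → B) (l : List ((S ⊕ ι) × Bool)) :
    (l.map (ltr (Sum.elim (fun _ => (1 : B)) (fun j => x (Sum.inl j))))).prod =
      ((l.filterMap keep).map (ltr x)).prod := by
  induction l with
  | nil => simp
  | cons p l ih =>
    obtain ⟨a | j, e⟩ := p
    · rw [keep_inl, ← ih]; cases e <;> simp [ltr]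
    · rw [keep_inr, List.map_cons, List.map_cons, List.prod_cons, List.prod_cons, ← ih]
      cases e <;> simp [ltr]

theorem expS_keep {S ι κ : Type*} (l : List ((S ⊕ ι) × Bool)) (j : ι) :
    expS (Sum.inl j) (FreeGroup.mk (l.filterMap (keep (κ := κ)))) =
      expS (Sum.inr j) (FreeGroup.mk l) := by
  simp only [expS, FreeGroup.lift_mk]
  induction l with
  | nil => simp
  | cons p l ih =>
    obtain ⟨a | j', e'⟩ := p
    · rw [keep_inl, ih]; cases e' <;> simp
    · rw [keep_inr, List.map_cons, List.map_cons, List.prod_cons, List.prod_cons, ih]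
      by_cases h : j' = j <;> simp [h]

theorem expS_keep' {S ι κ : Type*} (l : List ((S ⊕ ι) × Bool)) (j : κ) :
    expS (Sum.inr j) (FreeGroup.mk (l.filterMap (keep (κ := κ)))) = 1 := by
  simp only [expS, FreeGroup.lift_mk]
  induction l with
  | nil => simp
  | cons p l ih =>
    obtain ⟨a | j', e'⟩ := p
    · rw [keep_inl, ih]
    · rw [keep_inr, List.map_cons, List.prod_cons, ih]
      cases e' <;> simp

theorem expS_replicate {α : Type*} [DecidableEq α] (a b : α) (d : ℕ) :
    Multiplicative.toAdd (expS a (FreeGroup.mk (List.replicate d (b, true)))) =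
      if b = a then (d : ℤ) else 0 := by
  simp only [expS, FreeGroup.lift_mk, List.map_replicate, List.prod_replicate, cond_true,
    toAdd_pow, toAdd_ofAdd]
  split_ifs <;> simp

theorem top_smooth [FiniteDimensional ℂ B] [Nontrivial B] {τ : B →ₗ[ℝ] ℝ} (hτ : IsFTrace B τ)
    {S ι Z : Type*} [Fintype ι] [DecidableEq ι]
    [NormedAddCommGroup Z] [NormedSpace ℝ Z] [FiniteDimensional ℝ Z]
    (hW : WordStmt B (ι ⊕ Fin (finrank ℝ Z)))
    (w : ι → FreeGroup (S ⊕ ι)) (d : ℕ) (hd : 0 < d)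
    (hw : ∀ i j, Multiplicative.toAdd (expS (Sum.inr j) (w i)) = if i = j then (d : ℤ) else 0)
    (b : S → Z → selfAdjoint B) (hb : ∀ s, ContDiff ℝ 2 fun z => (b s z : B))
    (g : Z × (ι → B) → Z) (hg : ContDiff ℝ 2 g) (R : ℝ)
    (hR : ∀ z (t : ι → unitary B), ‖g (z, fun i => t i)‖ ≤ R) :
    ∃ (z : Z) (t : ι → unitary B), z = g (z, fun i => t i) ∧
      ∀ i, FreeGroup.lift (Sum.elim (fun s => cay (b s z)) t) (w i) = 1 := by
  classical
  choose l hl using fun i => Quot.exists_rep (w i)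
  replace hl : ∀ i, FreeGroup.mk (l i) = w i := hl
  let T : Z ≃L[ℝ] (Fin (finrank ℝ Z) → ℝ) := (Module.finBasis ℝ Z).equivFunL
  obtain ⟨κ, hκ⟩ := exists_dec (B := B)
  let ρ : ℝ := ‖T.toContinuousLinearMap‖ * |R| + 1
  have hρ : 0 < ρ := by positivity
  have hT : ∀ z (t : ι → unitary B) r, |T (g (z, fun i => t i)) r| < ρ := by
    intro z t r
    have h1 := norm_le_pi_norm (T (g (z, fun i => t i))) r
    have h2 := T.toContinuousLinearMap.le_opNorm (g (z, fun i => t i))
    have h3 : ‖T.toContinuousLinearMap‖ * ‖g (z, fun i => t i)‖ ≤ ‖T.toContinuousLinearMap‖ * |R| :=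
      mul_le_mul_of_nonneg_left ((hR z t).trans (le_abs_self R)) (norm_nonneg _)
    rw [Real.norm_eq_abs] at h1
    have h4 : ‖T (g (z, fun i => t i))‖ ≤ ‖T.toContinuousLinearMap‖ * |R| := h2.trans h3
    simp only [ρ]; linarith
  let dec : (ι ⊕ Fin (finrank ℝ Z) → B) → Z := fun x =>
    T.symm fun r => ρ * κ (x (Sum.inr r) ^ d)
  have hdec : ContDiff ℝ 2 dec :=
    T.symm.contDiff.comp (contDiff_pi.2 fun r => contDiff_const.mul
      (κ.contDiff.comp ((contDiff_apply ℝ B (Sum.inr r)).pow d)))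
  let y : ℝ × (ι ⊕ Fin (finrank ℝ Z) → B) → Fin (finrank ℝ Z) → ℝ := fun p r =>
    Real.smoothTransition p.1 * (T (g (dec p.2, fun i => p.2 (Sum.inl i))) r / ρ)
  have hy : ∀ r, ContDiff ℝ 2 fun p => y p r := by
    intro r
    refine (Real.smoothTransition.contDiff.comp contDiff_fst).mul (ContDiff.div_const ?_ _)
    refine (contDiff_apply ℝ ℝ r).comp (T.contDiff.comp (hg.comp ?_))
    exact (hdec.comp contDiff_snd).prodMk
      (contDiff_pi.2 fun i => (contDiff_apply ℝ B (Sum.inl i)).comp contDiff_snd)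
  have hy1 : ∀ (s : ℝ) (t : unitary (ι ⊕ Fin (finrank ℝ Z) → B)) r, |y (s, t) r| < 1 := by
    intro s t r
    have h1 := hT (dec t) (fun i => ⟨t.1 (Sum.inl i), mem_unitary_pi.1 t.2 _⟩) r
    have h2 : |T (g (dec t, fun i => t.1 (Sum.inl i))) r / ρ| < 1 := by
      rw [abs_div, abs_of_pos hρ, div_lt_one hρ]; exact h1
    simp only [y]
    rw [abs_mul, abs_of_nonneg (Real.smoothTransition.nonneg s)]
    exact mul_lt_one_of_nonneg_of_lt_one_right (Real.smoothTransition.le_one s) (abs_nonneg _) h2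
  let U : ℝ × (ι ⊕ Fin (finrank ℝ Z) → B) → S ⊕ ι → B := fun p =>
    Sum.elim (fun σ => cay0 (p.1 • (b σ (dec p.2) : B))) fun j => p.2 (Sum.inl j)
  have hsa : ∀ (s : ℝ) σ z, IsSelfAdjoint (s • (b σ z : B)) := fun s σ z =>
    (IsSelfAdjoint.all s).smul (b σ z).2
  let H : ℝ × (ι ⊕ Fin (finrank ℝ Z) → B) → (ι ⊕ Fin (finrank ℝ Z) → B) := fun p =>
    Sum.elim (fun i => ((l i).map (ltr (U p))).prod)
      fun r => p.2 (Sum.inr r) ^ d * star (sc B (y p r))
  have hH : ∀ (s : ℝ) (t : unitary (ι ⊕ Fin (finrank ℝ Z) → B)), ContDiffAt ℝ 2 H (s, t.1) := by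
    intro s t
    refine contDiffAt_pi.2 ?_
    rintro (i | r)
    · refine contDiffAt_prod_ltr (u := U) ?_ (l i)
      rintro (σ | j)
      · exact ContDiffAt.comp (f := fun p : ℝ × (ι ⊕ Fin (finrank ℝ Z) → B) =>
          p.1 • (b σ (dec p.2) : B)) _ (contDiffAt_cay0 (hsa _ _ _))
          (contDiff_fst.smul ((hb σ).comp (hdec.comp contDiff_snd))).contDiffAt
      · exact ((contDiff_apply ℝ B (Sum.inl j)).comp contDiff_snd).contDiffAt
    · refine (((contDiff_apply ℝ B (Sum.inr r)).comp contDiff_snd).pow d).contDiffAt.mul ?_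
      refine (starL' ℝ : B ≃L[ℝ] B).contDiff.contDiffAt.comp _ ?_
      exact ContDiffAt.comp (f := fun p => y p r) _ (contDiffAt_sc (hy1 s t r)) (hy r).contDiffAt
  have hU : ∀ (s : ℝ) (t : unitary (ι ⊕ Fin (finrank ℝ Z) → B)),
      H (s, t.1) ∈ unitary (ι ⊕ Fin (finrank ℝ Z) → B) := by
    intro s t
    refine mem_unitary_pi.2 ?_
    rintro (i | r)
    · refine prod_ltr_mem ?_ (l i)
      rintro (σ | j)
      · exact cay0_mem (hsa _ _ _)
      · exact mem_unitary_pi.1 t.2 _
    · exact mul_mem (pow_mem (mem_unitary_pi.1 t.2 _) d) (Unitary.star_mem (sc_mem (hy1 s t r)))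
  have hA := degHomotopy (isFTrace_pi hτ (ι ⊕ Fin (finrank ℝ Z)))
  let L : ι ⊕ Fin (finrank ℝ Z) → List ((ι ⊕ Fin (finrank ℝ Z)) × Bool) :=
    Sum.elim (fun i => (l i).filterMap keep) fun r => List.replicate d (Sum.inr r, true)
  have h0 : (fun x => H (0, x)) = wordMap L := by
    funext x k
    rcases k with i | r
    · simp only [H, U, L, wordMap, Sum.elim_inl, zero_smul, cay0_zero]
      exact prod_keep x (l i)
    · simp [H, y, L, wordMap, sc_zero, ltr]
  have hL := hW L d hd (by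
    intro k k'
    rw [← expS_mk]
    rcases k with i | r
    · rcases k' with j | r'
      · simp only [L, Sum.elim_inl, expS_keep, Sum.inl.injEq, hl, hw]
      · simp [L, expS_keep']
    · simp only [L, Sum.elim_inr, expS_replicate])
  rw [← h0, hA H (fun _ => 1) hH hU contDiff_const] at hL
  obtain ⟨t, ht⟩ := exists_eq_one hA _
    (fun t => ContDiffAt.comp (f := fun x => ((1 : ℝ), x)) _ (hH 1 t)
      (contDiffAt_const.prodMk contDiffAt_id)) (hU 1) hL
  refine ⟨dec t, fun i => ⟨t.1 (Sum.inl i), mem_unitary_pi.1 t.2 _⟩, ?_, fun i => ?_⟩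
  · apply T.injective
    funext r
    have h1 : t.1 (Sum.inr r) ^ d * star (sc B (y (1, t) r)) = 1 := congrFun ht (Sum.inr r)
    have h2 : t.1 (Sum.inr r) ^ d = sc B (y (1, t) r) := by
      have := congrArg (· * sc B (y (1, t) r)) h1
      simpa only [mul_assoc, Unitary.star_mul_self_of_mem (sc_mem (hy1 1 t r)), mul_one,
        one_mul] using this
    conv_lhs => simp only [dec, ContinuousLinearEquiv.apply_symm_apply]
    rw [h2, hκ]
    simp only [y, Real.smoothTransition.one, one_mul]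
    field_simp
  · apply Subtype.ext
    rw [← hl, coe_lift_mk]
    have h1 : ((l i).map (ltr (U (1, t)))).prod = 1 := congrFun ht (Sum.inl i)
    refine Eq.trans ?_ h1
    congr 3
    funext a
    rcases a with σ | j
    · simp [U, cay]
    · rfl

end Crest.Agent.R174
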