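import Crest.Agent.R174.Exp

/-! The degree of a word map whose exponent matrix is `d • I` (`d > 0`) is nonzero. -/

set_option autoImplicit false

open MeasureTheory Monoid
open scoped InnerProductSpace

noncomputable section

namespace Crest.Agent.R174

namespace Word

section gen

variable {A : Type*} [CStarAlgebra A]

/-- smooth maps preserving the unitary group -/
structure Good (F : A → A) : Prop where
  smooth : ContDiff ℝ 2 F
  mem : ∀ t : unitary A, F t ∈ unitary A

theorem Good.mul {F G : A → A} (hF : Good F) (hG : Good G) : Good (F * G) :=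
  ⟨hF.smooth.mul hG.smooth, fun t => mul_mem (hF.mem t) (hG.mem t)⟩

theorem good_const {a : A} (ha : a ∈ unitary A) : Good fun _ : A => a :=
  ⟨contDiff_const, fun _ => ha⟩

theorem good_one : Good (1 : A → A) := good_const (one_mem _)

theorem good_id : Good (fun t : A => t) := ⟨contDiff_id, fun t => t.2⟩

theorem Good.pow {F : A → A} (hF : Good F) (n : ℕ) : Good (F ^ n) := by
  induction n with
  | zero => rw [pow_zero]; exact good_one
  | succ n ih => rw [pow_succ]; exact ih.mul hF

theorem Good.diff {F : A → A} (hF : Good F) : Differentiable ℝ F :=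
  hF.smooth.differentiable (by norm_num)

/-- conjugation on the Lie algebra -/
def Ad (u : A) : sk A →ₗ[ℝ] sk A :=
  pr A ∘ₗ LinearMap.mulLeft ℝ u ∘ₗ LinearMap.mulRight ℝ (star u) ∘ₗ (sk A).subtype

theorem Ad_apply (u : A) (ξ : sk A) : Ad u ξ = pr A (u * ((ξ : A) * star u)) := rfl

theorem Ad_coe (u : A) (ξ : sk A) : (Ad u ξ : A) = u * ((ξ : A) * star u) := by
  rw [Ad_apply, pr_of_mem]
  rw [mem_sk, star_mul, star_mul, star_star, mem_sk.1 ξ.2]
  noncomm_ring

theorem Ad_pr (u x : A) : Ad u (pr A x) = pr A (u * (x * star u)) := by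
  apply Subtype.ext
  rw [Ad_coe, pr_coe, pr_coe, star_mul, star_mul, star_star, smul_mul_assoc, mul_smul_comm]
  congr 1
  noncomm_ring

theorem Ad_mul (u v : A) : Ad (u * v) = Ad u * Ad v := by
  ext ξ
  rw [Module.End.mul_apply, Ad_coe, Ad_coe, Ad_coe, star_mul]
  noncomm_ring

theorem Ad_one : Ad (1 : A) = 1 := by
  ext ξ
  rw [Ad_coe]; simp

theorem Ad_pow (u : A) (n : ℕ) : Ad (u ^ n) = Ad u ^ n := by
  induction n with
  | zero => rw [pow_zero, pow_zero, Ad_one]
  | succ n ih => rw [pow_succ, pow_succ, Ad_mul, ih]

theorem norm_Ad {u : A} (hu : u ∈ unitary A) (ξ : sk A) : ‖Ad u ξ‖ = ‖ξ‖ := by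
  change ‖(Ad u ξ : A)‖ = ‖(ξ : A)‖
  rw [Ad_coe, CStarRing.norm_mem_unitary_mul _ hu,
    CStarRing.norm_mul_mem_unitary _ (Unitary.star_mem hu)]

theorem jac_mul {F G : A → A} (hF : Good F) (hG : Good G) (t : unitary A) :
    jac (F * G) t = jac F t + Ad (F t) * jac G t := by
  apply LinearMap.ext
  intro ξ
  rw [LinearMap.add_apply, Module.End.mul_apply, jac_apply, jac_apply, jac_apply, Ad_pr,
    ← map_add]
  congr 1
  rw [fderiv_mul' (hF.diff _) (hG.diff _)]
  have h : G t * star (G t) = 1 := (Unitary.mem_iff.1 (hG.mem t)).2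
  simp only [Pi.mul_apply, ContinuousLinearMap.add_apply, ContinuousLinearMap.smul_apply,
    smul_eq_mul, star_mul, op_smul_eq_mul]
  rw [add_mul, mul_assoc (fderiv ℝ F t _), ← mul_assoc (G t), h, one_mul, add_comm]
  congr 1
  noncomm_ring

theorem jac_const (a t : A) : jac (fun _ : A => a) t = 0 := by
  apply LinearMap.ext
  intro ξ
  rw [jac_apply]
  simp

theorem jac_id (t : unitary A) : jac (fun t : A => t) t = 1 := by
  apply LinearMap.ext
  intro ξ
  have h : (t : A) * star (t : A) = 1 := (Unitary.mem_iff.1 t.2).2
  rw [jac_apply, fderiv_fun_id]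
  simp only [ContinuousLinearMap.id_apply, Module.End.one_apply]
  rw [mul_assoc, h, mul_one, pr_of_mem ξ.2]

theorem jac_pow (t : unitary A) (n : ℕ) :
    jac ((fun t : A => t) ^ n) t = ∑ q ∈ Finset.range n, Ad (t : A) ^ q := by
  induction n with
  | zero => rw [pow_zero, Finset.sum_range_zero]; exact jac_const 1 _
  | succ n ih =>
    rw [pow_succ, jac_mul (good_id.pow n) good_id, ih, jac_id, mul_one, Finset.sum_range_succ,
      Pi.pow_apply, Ad_pow]

theorem continuous_pr : Continuous (pr A) := by
  refine Continuous.subtype_mk (f := fun x : A => (1 / 2 : ℝ) • (x - star x)) ?_ _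
  fun_prop

theorem continuous_jac {F : A → A} (hF : Good F) (ξ : sk A) :
    Continuous fun t : A => jac F t ξ := by
  simp only [jac_apply]
  refine continuous_pr.comp ?_
  have h1 : Continuous (fderiv ℝ F) := hF.smooth.continuous_fderiv (by norm_num)
  have h2 : Continuous F := hF.smooth.continuous
  refine Continuous.mul ?_ h2.star
  exact h1.clm_apply (continuous_const.mul continuous_id)

theorem continuous_Ad : Continuous fun p : A × sk A => Ad p.1 p.2 := by
  simp only [Ad_apply]
  refine continuous_pr.comp ?_
  fun_prop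

theorem continuous_det {X V : Type*} [TopologicalSpace X] [NormedAddCommGroup V]
    [NormedSpace ℝ V] [FiniteDimensional ℝ V] {T : X → V →ₗ[ℝ] V}
    (h : ∀ v, Continuous fun x => T x v) : Continuous fun x => LinearMap.det (T x) := by
  let b := Module.finBasis ℝ V
  have : (fun x => LinearMap.det (T x)) = fun x => (LinearMap.toMatrix b b (T x)).det := by
    funext x; rw [LinearMap.det_toMatrix]
  rw [this]
  refine Continuous.matrix_det (continuous_matrix fun i j => ?_)
  simp only [LinearMap.toMatrix_apply]
  exact (b.coord i).continuous_of_finiteDimensional.comp (h (b j))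

variable [FiniteDimensional ℂ A]

/-- the degree -/
def dg (F : A → A) : ℝ := deg (fun _ => 1) F

theorem dg_eq (F : A → A) : dg F = ∫ t : unitary A, LinearMap.det (jac F t) ∂(haarU A) := by
  simp [dg, deg]

theorem dg_congr (hA : DegHomotopy A) {F G : A → A} (hF : Good F) (hG : Good G)
    (h : ∀ t : unitary A, F t = G t) : dg F = dg G := by
  have := hA (fun p => (1 - p.1) • F p.2 + p.1 • G p.2) (fun _ => 1) (fun s t => ?_)
    (fun s t => ?_) contDiff_const
  · simpa [dg] using this
  · refine ContDiff.contDiffAt ?_
    exact ((contDiff_const.sub contDiff_fst).smul (hF.smooth.comp contDiff_snd)).add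
      (contDiff_fst.smul (hG.smooth.comp contDiff_snd))
  · simp only
    rw [← h t, ← add_smul, sub_add_cancel, one_smul]
    exact hF.mem t

theorem dg_coef (hA : DegHomotopy A) {P Q : A → A} (hP : Good P) (hQ : Good Q) (u : unitary A) :
    dg (P * (fun _ => (u : A)) * Q) = dg (P * Q) := by
  obtain ⟨a, ha, hau⟩ := exists_exp_sk u
  have := hA (fun p => P p.2 * NormedSpace.exp (p.1 • a) * Q p.2) (fun _ => 1) (fun s t => ?_)
    (fun s t => ?_) contDiff_const
  · simp only [zero_smul, NormedSpace.exp_zero, mul_one, one_smul, hau] at this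
    exact this.symm
  · refine ContDiff.contDiffAt ?_
    exact ((hP.smooth.comp contDiff_snd).mul ((contDiff_exp_smul a 2).comp contDiff_fst)).mul
      (hQ.smooth.comp contDiff_snd)
  · exact mul_mem (mul_mem (hP.mem t) (exp_smul_mem ha s)) (hQ.mem t)

/-- the integrand of the averaged degree -/
def Phi (P X Y : A → A) (t h k : unitary A) : ℝ :=
  LinearMap.det (jac P t + Ad (h : A) * jac X t + Ad (k : A) * jac Y t)

theorem continuous_Phi {P X Y : A → A} (hP : Good P) (hX : Good X) (hY : Good Y)
    {Z : Type*} [TopologicalSpace Z] {t h k : Z → unitary A} (ht : Continuous t)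
    (hh : Continuous h) (hk : Continuous k) :
    Continuous fun z => Phi P X Y (t z) (h z) (k z) := by
  refine continuous_det fun ξ => ?_
  simp only [LinearMap.add_apply, Module.End.mul_apply]
  have ht' : Continuous fun z => (t z : A) := continuous_subtype_val.comp ht
  have hh' : Continuous fun z => (h z : A) := continuous_subtype_val.comp hh
  have hk' : Continuous fun z => (k z : A) := continuous_subtype_val.comp hk
  refine (((continuous_jac hP ξ).comp ht').add ?_).add ?_
  · exact continuous_Ad.comp (hh'.prodMk ((continuous_jac hX ξ).comp ht'))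
  · exact continuous_Ad.comp (hk'.prodMk ((continuous_jac hY ξ).comp ht'))

/-- a good map as a self-map of the unitary group -/
def Good.U {F : A → A} (hF : Good F) (t : unitary A) : unitary A := ⟨F t, hF.mem t⟩

theorem Good.continuous_U {F : A → A} (hF : Good F) : Continuous hF.U :=
  (hF.smooth.continuous.comp continuous_subtype_val).subtype_mk _

instance : SecondCountableTopology (unitary A) := by
  haveI : ProperSpace A := FiniteDimensional.proper ℂ A
  infer_instance

theorem dg_avg (hA : DegHomotopy A) {P X Y : A → A} (hP : Good P) (hX : Good X) (hY : Good Y) :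
    dg (P * X * Y) = ∫ t, ∫ p : unitary A × unitary A, Phi P X Y t p.1 p.2
      ∂((haarU A).prod (haarU A)) ∂(haarU A) := by
  have h1 : ∀ a b : unitary A, dg (P * X * Y) =
      ∫ t, Phi P X Y t (hP.U t * a) (hP.U t * a * hX.U t * b) ∂(haarU A) := by
    intro a b
    have ha := good_const a.2
    have hb := good_const b.2
    have e1 := dg_coef hA hP (hX.mul hY) a
    have e2 := dg_coef hA ((hP.mul ha).mul hX) hY b
    rw [mul_assoc P X Y, ← e1, ← mul_assoc, ← e2, dg_eq]
    refine integral_congr_ae (Filter.Eventually.of_forall fun t => ?_)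
    simp only [Phi]
    rw [jac_mul (((hP.mul ha).mul hX).mul hb) hY, jac_mul ((hP.mul ha).mul hX) hb,
      jac_mul (hP.mul ha) hX, jac_mul hP ha, jac_const, jac_const, mul_zero, mul_zero, add_zero,
      add_zero]
    rfl
  have hc : Continuous fun z : (unitary A × unitary A) × unitary A =>
      Phi P X Y z.2 (hP.U z.2 * z.1.1) (hP.U z.2 * z.1.1 * hX.U z.2 * z.1.2) := by
    have := hP.continuous_U
    have := hX.continuous_U
    refine continuous_Phi hP hX hY continuous_snd ?_ ?_ <;> fun_prop
  have h2 : dg (P * X * Y) = ∫ p : unitary A × unitary A,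
      ∫ t, Phi P X Y t (hP.U t * p.1) (hP.U t * p.1 * hX.U t * p.2) ∂(haarU A)
        ∂((haarU A).prod (haarU A)) := by
    simp only [← h1]
    simp
  rw [h2, integral_integral_swap (hc.integrable_of_hasCompactSupport (HasCompactSupport.of_compactSpace _))]
  refine integral_congr_ae (Filter.Eventually.of_forall fun t => ?_)
  have hc1 : Continuous fun p : unitary A × unitary A =>
      Phi P X Y t (hP.U t * p.1) (hP.U t * p.1 * hX.U t * p.2) := by
    refine continuous_Phi hP hX hY continuous_const ?_ ?_ <;> fun_prop
  have hc2 : Continuous fun p : unitary A × unitary A => Phi P X Y t p.1 p.2 :=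
    continuous_Phi hP hX hY continuous_const continuous_fst continuous_snd
  simp only
  rw [integral_prod _ (hc1.integrable_of_hasCompactSupport (HasCompactSupport.of_compactSpace _)),
    integral_prod _ (hc2.integrable_of_hasCompactSupport (HasCompactSupport.of_compactSpace _))]
  simp only
  rw [← integral_mul_left_eq_self (fun x => ∫ y, Phi P X Y t x y ∂(haarU A)) (hP.U t)]
  refine integral_congr_ae (Filter.Eventually.of_forall fun a => ?_)
  exact integral_mul_left_eq_self (fun y => Phi P X Y t (hP.U t * a) y) _

theorem dg_swap3 (hA : DegHomotopy A) {P X Y : A → A} (hP : Good P) (hX : Good X) (hY : Good Y) :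
    dg (P * X * Y) = dg (P * Y * X) := by
  rw [dg_avg hA hP hX hY, dg_avg hA hP hY hX]
  refine integral_congr_ae (Filter.Eventually.of_forall fun t => ?_)
  simp only
  rw [← integral_prod_swap]
  refine integral_congr_ae (Filter.Eventually.of_forall fun p => ?_)
  simp only [Phi, Prod.fst_swap, Prod.snd_swap]
  rw [add_right_comm]

theorem dg_swap4 (hA : DegHomotopy A) {P X Y Q : A → A} (hP : Good P) (hX : Good X) (hY : Good Y)
    (hQ : Good Q) : dg (P * X * Y * Q) = dg (P * Y * X * Q) := by
  rw [mul_assoc (P * X), dg_swap3 hA hP hX (hY.mul hQ), ← mul_assoc,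
    dg_swap3 hA (hP.mul hY) hQ hX]

omit [FiniteDimensional ℂ A] in
theorem good_prod {α : Type*} {φ : α → A → A} (hφ : ∀ x, Good (φ x)) (l : List α) :
    Good (l.map φ).prod := by
  induction l with
  | nil => exact good_one
  | cons x l ih => rw [List.map_cons, List.prod_cons]; exact (hφ x).mul ih

theorem dg_perm (hA : DegHomotopy A) {α : Type*} {φ : α → A → A} (hφ : ∀ x, Good (φ x))
    {l l' : List α} (h : l.Perm l') {P : A → A} (hP : Good P) :
    dg (P * (l.map φ).prod) = dg (P * (l'.map φ).prod) := by
  induction h generalizing P with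
  | nil => rfl
  | cons x _ ih =>
    simp only [List.map_cons, List.prod_cons, ← mul_assoc]
    exact ih (hP.mul (hφ x))
  | swap x y l =>
    simp only [List.map_cons, List.prod_cons, ← mul_assoc]
    exact dg_swap4 hA hP (hφ y) (hφ x) (good_prod hφ l)
  | trans _ _ ih1 ih2 => exact (ih1 hP).trans (ih2 hP)

theorem det_geom_nonneg {V : Type*} [NormedAddCommGroup V] [NormedSpace ℝ V]
    [FiniteDimensional ℝ V] (O : V →ₗ[ℝ] V) (hO : ∀ v, ‖O v‖ = ‖v‖) {d : ℕ} (hd : 0 < d) :
    0 ≤ LinearMap.det (∑ q ∈ Finset.range d, O ^ q) := by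
  let f : ℝ → ℝ := fun r => LinearMap.det (∑ q ∈ Finset.range d, (r • O) ^ q)
  have hf : Continuous f := by
    refine continuous_det fun v => ?_
    simp only [smul_pow, LinearMap.sum_apply, LinearMap.smul_apply]
    fun_prop
  have hOp : ∀ (n : ℕ) v, ‖(O ^ n) v‖ = ‖v‖ := by
    intro n
    induction n with
    | zero => simp
    | succ n ih => intro v; rw [pow_succ, Module.End.mul_apply, ih, hO]
  have hne : ∀ r, 0 ≤ r → r < 1 → f r ≠ 0 := by
    intro r h0 h1 h
    obtain ⟨v, hv, hv0⟩ := (Submodule.ne_bot_iff _).1
      (LinearMap.det_eq_zero_iff_ker_ne_bot.1 h)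
    have h2 : (1 - (r • O) ^ d) v = 0 := by
      rw [← mul_neg_geom_sum, Module.End.mul_apply, LinearMap.mem_ker.1 hv, map_zero]
    rw [LinearMap.sub_apply, sub_eq_zero, smul_pow, LinearMap.smul_apply,
      Module.End.one_apply] at h2
    have h3 := congrArg norm h2
    rw [norm_smul, hOp, Real.norm_of_nonneg (pow_nonneg h0 d)] at h3
    have h4 : r ^ d < 1 := pow_lt_one₀ h0 h1 hd.ne'
    have h5 : 0 < ‖v‖ := norm_pos_iff.2 hv0
    nlinarith
  have h0 : f 0 = 1 := by
    obtain ⟨e, rfl⟩ := Nat.exists_eq_succ_of_ne_zero hd.ne'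
    simp [f, Finset.sum_range_succ']
  have h1 : f 1 = LinearMap.det (∑ q ∈ Finset.range d, O ^ q) := by simp [f]
  rw [← h1]
  by_contra hneg
  push Not at hneg
  obtain ⟨r, hr, hr0⟩ := intermediate_value_Icc' (zero_le_one' ℝ) hf.continuousOn
    (show (0 : ℝ) ∈ Set.Icc (f 1) (f 0) from ⟨hneg.le, by rw [h0]; exact zero_le_one⟩)
  rcases hr.2.lt_or_eq with h | h
  · exact hne r hr.1 h hr0
  · rw [h] at hr0; exact hneg.ne hr0

theorem dg_pow_pos {d : ℕ} (hd : 0 < d) : 0 < dg ((fun t : A => t) ^ d) := by
  rw [dg_eq]
  have hc : Continuous fun t : unitary A => LinearMap.det (jac ((fun t : A => t) ^ d) t) :=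
    continuous_det fun ξ => (continuous_jac (good_id.pow d) ξ).comp continuous_subtype_val
  refine hc.integral_pos_of_hasCompactSupport_nonneg_nonzero (HasCompactSupport.of_compactSpace _)
    (fun t => ?_) (x := 1) ?_
  · simp only [jac_pow]
    exact det_geom_nonneg _ (norm_Ad t.2) hd
  · rw [jac_pow]
    simp only [OneMemClass.coe_one, Ad_one, one_pow, Finset.sum_const, Finset.card_range]
    rw [← Nat.cast_smul_eq_nsmul ℝ, LinearMap.det_smul, map_one, mul_one]
    positivity

end gen

section word

variable {B ι : Type*} [CStarAlgebra B] [Fintype ι] [DecidableEq ι]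

/-- a letter placed in coordinate `i` -/
def lt (i : ι) (p : ι × Bool) : (ι → B) → (ι → B) := fun t => Pi.mulSingle i (ltr t p)

theorem mem_unitary_pi {t : ι → B} : t ∈ unitary (ι → B) ↔ ∀ i, t i ∈ unitary B := by
  simp only [Unitary.mem_iff, funext_iff, Pi.mul_apply, Pi.star_apply, Pi.one_apply, forall_and]

theorem ltr_mem (t : unitary (ι → B)) (p : ι × Bool) : ltr (t : ι → B) p ∈ unitary B := by
  unfold ltr
  split_ifs
  · exact mem_unitary_pi.1 t.2 _
  · exact Unitary.star_mem (mem_unitary_pi.1 t.2 _)

theorem contDiff_ltr (p : ι × Bool) : ContDiff ℝ 2 fun t : ι → B => ltr t p := by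
  unfold ltr
  split_ifs
  · exact contDiff_apply ℝ B p.1
  · exact (starL' ℝ (A := B)).contDiff.comp (contDiff_apply ℝ B p.1)

theorem good_lt (i : ι) (p : ι × Bool) : Good (lt (B := B) i p) := by
  constructor
  · refine contDiff_pi.2 fun k => ?_
    by_cases h : k = i
    · subst h
      simpa [lt] using contDiff_ltr (B := B) p
    · simpa [lt, Pi.mulSingle_eq_of_ne h] using contDiff_const
  · intro t
    refine mem_unitary_pi.2 fun k => ?_
    by_cases h : k = i
    · subst h
      simpa [lt] using ltr_mem t p
    · simpa [lt, Pi.mulSingle_eq_of_ne h] using one_mem _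

theorem good_wordMap (L : ι → List (ι × Bool)) : Good (wordMap (B := B) L) := by
  constructor
  · refine contDiff_pi.2 fun k => ?_
    unfold wordMap
    induction L k with
    | nil => simpa using contDiff_const
    | cons x l ih =>
      simp only [List.map_cons, List.prod_cons]
      exact (contDiff_ltr x).mul ih
  · intro t
    refine mem_unitary_pi.2 fun k => ?_
    unfold wordMap
    refine list_prod_mem fun x hx => ?_
    obtain ⟨p, -, rfl⟩ := List.mem_map.1 hx
    exact ltr_mem t p

theorem prod_lt (i : ι) (l : List (ι × Bool)) (t : ι → B) :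
    (l.map (lt (B := B) i)).prod t = Pi.mulSingle i (l.map (ltr t)).prod := by
  induction l with
  | nil => simp
  | cons x l ih =>
    simp only [List.map_cons, List.prod_cons, Pi.mul_apply, ih, Pi.mulSingle_mul, lt]

theorem wordMap_eq (L : ι → List (ι × Bool)) (i : ι) (l : List (ι × Bool)) :
    wordMap (B := B) (Function.update L i l) =
      wordMap (Function.update L i []) * (l.map (lt i)).prod := by
  funext t k
  rw [Pi.mul_apply, Pi.mul_apply, prod_lt]
  by_cases h : k = i
  · subst h
    simp [wordMap]
  · simp [wordMap, Pi.mulSingle_eq_of_ne h, Function.update_of_ne h]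

variable [FiniteDimensional ℂ B]

theorem dg_coord (hA : DegHomotopy (ι → B)) (i : ι) (d : ℕ) {P : (ι → B) → (ι → B)}
    (hP : Good P) (n : ℕ) (l : List (ι × Bool)) (hn : l.length ≤ n)
    (hl : ∀ j, (l.count (j, true) : ℤ) - l.count (j, false) = if i = j then (d : ℤ) else 0) :
    dg (P * (l.map (lt i)).prod) = dg (P * ((List.replicate d (i, true)).map (lt i)).prod) := by
  induction n generalizing l with
  | zero =>
    obtain rfl : l = [] := List.length_eq_zero_iff.1 (Nat.le_zero.1 hn)
    have := hl i
    simp only [List.count_nil, if_true] at this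
    obtain rfl : d = 0 := by omega
    rfl
  | succ n ih =>
    by_cases hneg : ∃ j, (j, false) ∈ l
    · obtain ⟨j, hj⟩ := hneg
      have hj1 : 0 < l.count (j, false) := List.count_pos_iff.2 hj
      have hj2 : (j, true) ∈ l := by
        refine List.count_pos_iff.1 ?_
        have := hl j
        split_ifs at this <;> omega
      have hj3 : (j, false) ∈ l.erase (j, true) := (List.mem_erase_of_ne (by simp)).2 hj
      have hperm : l.Perm ((j, true) :: (j, false) :: (l.erase (j, true)).erase (j, false)) :=
        (List.perm_cons_erase hj2).trans ((List.perm_cons_erase hj3).cons _)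
      set l' := (l.erase (j, true)).erase (j, false)
      have hlen := hperm.length_eq
      simp only [List.length_cons] at hlen
      rw [dg_perm hA (good_lt i) hperm hP, ← ih l' (by omega) (fun k => ?_)]
      · refine dg_congr hA (hP.mul (good_prod (good_lt i) _)) (hP.mul (good_prod (good_lt i) _))
          fun t => ?_
        simp only [List.map_cons, List.prod_cons, Pi.mul_apply]
        congr 1
        rw [← mul_assoc]
        have : lt i (j, true) (t : ι → B) * lt i (j, false) (t : ι → B) = 1 := by
          simp only [lt, ltr, if_true, ← Pi.mulSingle_mul]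
          have h1 : (t : ι → B) j * star ((t : ι → B) j) = 1 :=
            (Unitary.mem_iff.1 (mem_unitary_pi.1 t.2 j)).2
          simp [h1]
        rw [this, one_mul]
      · rw [← hl k, hperm.count_eq, hperm.count_eq]
        by_cases hk : j = k
        · subst hk; simp
        · simp [hk]
    · push Not at hneg
      have hc : ∀ j, l.count (j, false) = 0 := fun j => List.count_eq_zero.2 (hneg j)
      have h1 : ∀ x ∈ l, x = (i, true) := by
        rintro ⟨j, b⟩ hx
        cases b
        · exact absurd hx (hneg j)
        · have h2 := hl j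
          have h3 : 0 < l.count (j, true) := List.count_pos_iff.2 hx
          rw [hc] at h2
          split_ifs at h2 with h
          · rw [h]
          · omega
      have h2 : l = List.replicate d (i, true) := by
        refine List.eq_replicate_iff.2 ⟨?_, h1⟩
        have h3 := hl i
        rw [hc, if_pos rfl, List.count_eq_length.2 fun x hx => (h1 x hx).symm] at h3
        omega
      rw [← h2]

end word

end Word

open Word in
theorem deg_wordMap_ne_zero {B ι : Type*} [CStarAlgebra B] [FiniteDimensional ℂ B] [Fintype ι]
    [DecidableEq ι] (hA : DegHomotopy (ι → B)) (L : ι → List (ι × Bool)) (d : ℕ) (hd : 0 < d)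
    (hL : ∀ i j, ((L i).count (j, true) : ℤ) - (L i).count (j, false) =
      if i = j then (d : ℤ) else 0) :
    deg (A := ι → B) (fun _ => 1) (wordMap L) ≠ 0 := by
  have key : ∀ s : Finset ι, dg (wordMap (B := B) L) =
      dg (wordMap (B := B) fun i => if i ∈ s then List.replicate d (i, true) else L i) := by
    intro s
    induction s using Finset.induction_on with
    | empty => simp
    | insert i s hi ih =>
      set L' : ι → List (ι × Bool) := fun i => if i ∈ s then List.replicate d (i, true) else L i
      have e1 : L' = Function.update L' i (L i) := by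
        funext k
        by_cases h : k = i
        · subst h; simp [L', hi]
        · rw [Function.update_of_ne h]
      have e2 : (fun k => if k ∈ insert i s then List.replicate d (k, true) else L k) =
          Function.update L' i (List.replicate d (i, true)) := by
        funext k
        by_cases h : k = i
        · subst h; simp
        · simp [L', h]
      rw [ih, e2, wordMap_eq, e1, wordMap_eq, ← e1]
      exact dg_coord hA i d (good_wordMap _) _ _ le_rfl (hL i)
  have h2 : (wordMap (B := B) fun i => if i ∈ (Finset.univ : Finset ι) then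
      List.replicate d (i, true) else L i) = (fun t : ι → B => t) ^ d := by
    funext t k
    simp [wordMap, ltr]
  have := key Finset.univ
  rw [h2] at this
  exact (this ▸ dg_pow_pos hd : 0 < dg (wordMap (B := B) L)).ne'

end Crest.Agent.R174
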